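import Mathlib

/-!
Elementary facts about Jacobi symbols: incomplete sums of a Jacobi symbol of nonsquare modulus.
-/

namespace Vale.Agent.P014.H580

open Finset

/-- an odd non-square modulus has a non-residue -/
theorem exists_neg {k : ℕ} (hk : Odd k) (hs : ¬ IsSquare k) : ∃ n : ℕ, jacobiSym (n : ℤ) k = -1 := by
  have hk0 : k ≠ 0 := by rintro rfl; exact absurd hk (by decide)
  obtain ⟨a, b, hab, ha⟩ := Nat.sq_mul_squarefree k
  have ha1 : a ≠ 1 := by
    rintro rfl
    exact hs ⟨b, by rw [← hab]; ring⟩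
  obtain ⟨p, hp, hpa⟩ := Nat.exists_prime_and_dvd ha1
  have hb0 : b ≠ 0 := by rintro rfl; simp at hab; exact hk0 hab.symm
  have ha0 : a ≠ 0 := ha.ne_zero
  have hfa : a.factorization p = 1 := by
    have h1 := ha.natFactorization_le_one p
    have h2 : 0 < a.factorization p := hp.factorization_pos_of_dvd ha0 hpa
    omega
  have hfk : k.factorization p = 2 * b.factorization p + 1 := by
    rw [← hab, Nat.factorization_mul (pow_ne_zero 2 hb0) ha0, Nat.factorization_pow]
    simp [hfa]
  obtain ⟨e, m, hpm, hkm⟩ := Nat.exists_eq_pow_mul_and_not_dvd hk0 p hp.ne_one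
  have he : e = 2 * b.factorization p + 1 := by
    have hm0 : m ≠ 0 := by rintro rfl; simp at hkm; exact hk0 hkm
    have h1 : k.factorization p = e := by
      rw [hkm, Nat.factorization_mul (pow_ne_zero _ hp.ne_zero) hm0, Nat.factorization_pow]
      simp [hp.factorization_self, Nat.factorization_eq_zero_of_not_dvd hpm]
    omega
  have : Fact p.Prime := ⟨hp⟩
  have hp2 : p ≠ 2 := by
    rintro rfl
    have h1 : 2 ∣ k := by
      rw [hkm, he]
      exact Dvd.dvd.mul_right (dvd_pow_self 2 (by omega)) m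
    rcases hk with ⟨c, hc⟩
    omega
  obtain ⟨g, hg⟩ := quadraticChar_exists_neg_one (F := ZMod p) (by rwa [ZMod.ringChar_zmod_n])
  have hco : Nat.Coprime p m := (Nat.Prime.coprime_iff_not_dvd hp).2 hpm
  obtain ⟨n, hn1, hn2⟩ := Nat.chineseRemainder hco g.val 1
  refine ⟨n, ?_⟩
  have : NeZero (p ^ e) := ⟨pow_ne_zero _ hp.ne_zero⟩
  have hm0 : m ≠ 0 := by rintro rfl; simp at hkm; exact hk0 hkm
  have : NeZero m := ⟨hm0⟩
  rw [hkm, jacobiSym.mul_right, jacobiSym.pow_right, ← jacobiSym.legendreSym.to_jacobiSym]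
  have e1 : legendreSym p (n : ℤ) = -1 := by
    rw [legendreSym]
    have h1 : ((n : ℤ) : ZMod p) = g := by
      have h2 := (ZMod.natCast_eq_natCast_iff n g.val p).2 hn1
      rw [Int.cast_natCast, h2]
      simp
    rw [h1, hg]
  have e2 : jacobiSym (n : ℤ) m = 1 := by
    have h1 : (n : ℤ) ≡ 1 [ZMOD m] := by
      have := Int.natCast_modEq_iff.2 hn2
      simpa using this
    rw [jacobiSym.mod_left' h1, jacobiSym.one_left]
  rw [e1, e2, he, pow_add, pow_mul]
  simp

/-- the complete sum vanishes -/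
theorem sum_full {k : ℕ} (hk : Odd k) (hs : ¬ IsSquare k) :
    ∑ m ∈ range k, jacobiSym (m : ℤ) k = 0 := by
  obtain ⟨n, hn⟩ := exists_neg hk hs
  have hk0 : 0 < k := hk.pos
  have : NeZero k := ⟨hk0.ne'⟩
  have hcop : Nat.Coprime n k := by
    by_contra hcon
    have h1 : jacobiSym n k = 0 := by
      rw [jacobiSym.eq_zero_iff_not_coprime, Int.gcd_natCast_natCast]
      exact hcon
    rw [h1] at hn
    norm_num at hn
  have h1 : ∑ m ∈ range k, jacobiSym (m : ℤ) k = ∑ m ∈ range k, jacobiSym ((n * m % k : ℕ) : ℤ) k := by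
    symm
    apply Finset.sum_nbij (fun m => n * m % k)
    · intro m hm
      simp only [mem_range]
      exact Nat.mod_lt _ hk0
    · intro a ha b hb hab
      simp only [coe_range, Set.mem_Iio] at ha hb
      have h2 : n * a ≡ n * b [MOD k] := hab
      have h3 : a ≡ b [MOD k] := Nat.ModEq.cancel_left_of_coprime (by
        rw [Nat.gcd_comm]; exact hcop) h2
      exact Nat.ModEq.eq_of_lt_of_lt h3 ha hb
    · apply Finset.surjOn_of_injOn_of_card_le
      · intro m hm
        simp only [coe_range, Set.mem_Iio]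
        exact Nat.mod_lt _ hk0
      · intro a ha b hb hab
        simp only [coe_range, Set.mem_Iio] at ha hb
        have h2 : n * a ≡ n * b [MOD k] := hab
        have h3 : a ≡ b [MOD k] := Nat.ModEq.cancel_left_of_coprime (by
          rw [Nat.gcd_comm]; exact hcop) h2
        exact Nat.ModEq.eq_of_lt_of_lt h3 ha hb
      · exact le_rfl
    · intro m hm
      rfl
  have h2 : ∀ m : ℕ, jacobiSym ((n * m % k : ℕ) : ℤ) k = - jacobiSym (m : ℤ) k := by
    intro m
    have : jacobiSym ((n * m % k : ℕ) : ℤ) k = jacobiSym ((n : ℤ) * m) k := by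
      apply jacobiSym.mod_left'
      push_cast
      exact Int.mod_modEq _ _
    rw [this, jacobiSym.mul_left, hn]
    ring
  rw [Finset.sum_congr rfl (fun m _ => h2 m), Finset.sum_neg_distrib] at h1
  omega

/-- values at most one -/
theorem jac_abs (a : ℤ) (b : ℕ) : |jacobiSym a b| ≤ 1 := by
  rcases jacobiSym.trichotomy a b with h | h | h <;> rw [h] <;> norm_num

/-- incomplete sums over an initial segment -/
theorem sum_range_le {k : ℕ} (hk : Odd k) (hs : ¬ IsSquare k) (N : ℕ) :
    |∑ m ∈ range N, jacobiSym (m : ℤ) k| ≤ k := by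
  have hk0 : 0 < k := hk.pos
  have per : ∀ c : ℕ, ∑ m ∈ range (k * c), jacobiSym (m : ℤ) k = 0 := by
    intro c
    induction c with
    | zero => simp
    | succ c ih =>
      rw [mul_add, mul_one, Finset.sum_range_add, ih, zero_add]
      rw [← sum_full hk hs]
      apply Finset.sum_congr rfl
      intro m _
      apply jacobiSym.mod_left'
      push_cast
      exact Int.modEq_iff_dvd.2 ⟨-c, by ring⟩
  have h1 : N = k * (N / k) + N % k := (Nat.div_add_mod N k).symm
  rw [h1, Finset.sum_range_add, per, zero_add]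
  refine (Finset.abs_sum_le_sum_abs _ _).trans ?_
  refine (Finset.sum_le_sum (fun m _ => jac_abs _ _)).trans ?_
  rw [Finset.sum_const, card_range]
  simp only [nsmul_eq_mul, mul_one]
  exact_mod_cast (Nat.mod_lt N hk0).le

end Vale.Agent.P014.H580
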