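import Mathlib
import Vale.Agent.P014.H580.J0

/-!
Bilinear sums of Jacobi symbols over rectangles, first estimates.
-/

namespace Vale.Agent.P014.H580

open Finset

/-- real valued Jacobi symbol -/
noncomputable def J (d e : ℕ) : ℝ := ((jacobiSym (d : ℤ) e : ℤ) : ℝ)

lemma J_abs (d e : ℕ) : |J d e| ≤ 1 := by
  unfold J
  have := jac_abs (d : ℤ) e
  rw [← Int.cast_abs]
  exact_mod_cast this

lemma J_mul_left (a b e : ℕ) : J (a * b) e = J a e * J b e := by
  unfold J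
  rw [Nat.cast_mul, jacobiSym.mul_left, Int.cast_mul]

lemma J_mul_right (a b e : ℕ) (hb : b ≠ 0) (he : e ≠ 0) : J a (b * e) = J a b * J a e := by
  unfold J
  have : NeZero b := ⟨hb⟩
  have : NeZero e := ⟨he⟩
  rw [jacobiSym.mul_right, Int.cast_mul]

lemma not_square_mul {a b : ℕ} (ha : Squarefree a) (hb : Squarefree b) (hab : a ≠ b) :
    ¬ IsSquare (a * b) := by
  rintro ⟨c, hc⟩
  apply hab
  have ha0 := ha.ne_zero
  have hb0 := hb.ne_zero
  apply Nat.eq_of_factorization_eq ha0 hb0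
  intro p
  have h1 : a.factorization p + b.factorization p = 2 * c.factorization p := by
    have h2 : (a * b).factorization p = (c * c).factorization p := by rw [hc]
    have hc0 : c ≠ 0 := by rintro rfl; simp at hc; omega
    rw [Nat.factorization_mul ha0 hb0, Nat.factorization_mul hc0 hc0] at h2
    simp only [Finsupp.coe_add, Pi.add_apply] at h2
    omega
  have h3 := ha.natFactorization_le_one p
  have h4 := hb.natFactorization_le_one p
  omega

lemma sumJ_le {k : ℕ} (hk : Odd k) (hs : ¬ IsSquare k) (N : ℕ) :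
    |∑ m ∈ range N, J m k| ≤ k := by
  have := sum_range_le hk hs N
  unfold J
  rw [← Int.cast_sum, ← Int.cast_abs]
  exact_mod_cast this

/-- mean square over a full interval -/
lemma U2 (E : ℕ) (T : Finset ℕ) (hT : ∀ e ∈ T, 1 ≤ e ∧ e ≤ E ∧ Odd e ∧ Squarefree e)
    (b : ℕ → ℝ) (hb : ∀ e, |b e| ≤ 1) (N : ℕ) :
    ∑ m ∈ range N, (∑ e ∈ T, b e * J m e) ^ 2 ≤ (E : ℝ) * N + (E : ℝ) ^ 4 := by
  have hcard : (T.card : ℝ) ≤ E := by
    have h1 : T ⊆ Finset.Icc 1 E := by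
      intro e he
      rw [Finset.mem_Icc]
      exact ⟨(hT e he).1, (hT e he).2.1⟩
    have := Finset.card_le_card h1
    rw [Nat.card_Icc] at this
    exact_mod_cast this
  have h1 : ∑ m ∈ range N, (∑ e ∈ T, b e * J m e) ^ 2
      = ∑ e ∈ T, ∑ f ∈ T, b e * b f * ∑ m ∈ range N, J m (e * f) := by
    have : ∀ m ∈ range N, (∑ e ∈ T, b e * J m e) ^ 2
        = ∑ e ∈ T, ∑ f ∈ T, b e * b f * J m (e * f) := by
      intro m _
      rw [sq, Finset.sum_mul_sum]
      apply Finset.sum_congr rfl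
      intro e he
      apply Finset.sum_congr rfl
      intro f hf
      have he1 := (hT e he).1
      have hf1 := (hT f hf).1
      rw [J_mul_right m e f (by omega) (by omega)]
      ring
    rw [Finset.sum_congr rfl this, Finset.sum_comm]
    apply Finset.sum_congr rfl
    intro e _
    rw [Finset.sum_comm]
    apply Finset.sum_congr rfl
    intro f _
    rw [Finset.mul_sum]
  rw [h1]
  have hbb : ∀ e f, |b e * b f| ≤ 1 := by
    intro e f
    rw [abs_mul]
    exact mul_le_one₀ (hb e) (abs_nonneg _) (hb f)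
  have h2 : ∀ e ∈ T, ∀ f ∈ T, b e * b f * ∑ m ∈ range N, J m (e * f)
      ≤ (if e = f then (N : ℝ) else 0) + (E : ℝ) ^ 2 := by
    intro e he f hf
    obtain ⟨he1, he2, he3, he4⟩ := hT e he
    obtain ⟨hf1, hf2, hf3, hf4⟩ := hT f hf
    have hle : b e * b f * ∑ m ∈ range N, J m (e * f) ≤ |∑ m ∈ range N, J m (e * f)| := by
      calc b e * b f * ∑ m ∈ range N, J m (e * f) ≤ |b e * b f * ∑ m ∈ range N, J m (e * f)| :=
            le_abs_self _
        _ = |b e * b f| * |∑ m ∈ range N, J m (e * f)| := abs_mul _ _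
        _ ≤ 1 * |∑ m ∈ range N, J m (e * f)| :=
            mul_le_mul_of_nonneg_right (hbb e f) (abs_nonneg _)
        _ = _ := one_mul _
    refine hle.trans ?_
    by_cases hef : e = f
    · rw [if_pos hef]
      have h3 : |∑ m ∈ range N, J m (e * f)| ≤ N := by
        refine (Finset.abs_sum_le_sum_abs _ _).trans ?_
        refine (Finset.sum_le_sum (fun m _ => J_abs _ _)).trans ?_
        rw [Finset.sum_const, card_range]
        simp
      have : (0 : ℝ) ≤ (E : ℝ) ^ 2 := by positivity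
      linarith
    · rw [if_neg hef, zero_add]
      refine (sumJ_le (he3.mul hf3) (not_square_mul he4 hf4 hef) N).trans ?_
      rw [sq]
      push_cast
      gcongr
  calc ∑ e ∈ T, ∑ f ∈ T, b e * b f * ∑ m ∈ range N, J m (e * f)
      ≤ ∑ e ∈ T, ∑ f ∈ T, ((if e = f then (N : ℝ) else 0) + (E : ℝ) ^ 2) :=
        Finset.sum_le_sum (fun e he => Finset.sum_le_sum (fun f hf => h2 e he f hf))
    _ = ∑ e ∈ T, ((N : ℝ) + T.card * (E : ℝ) ^ 2) := by
        apply Finset.sum_congr rfl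
        intro e he
        rw [Finset.sum_add_distrib, Finset.sum_ite_eq, if_pos he, Finset.sum_const, nsmul_eq_mul]
    _ = T.card * ((N : ℝ) + T.card * (E : ℝ) ^ 2) := by
        rw [Finset.sum_const, nsmul_eq_mul]
    _ ≤ E * ((N : ℝ) + E * (E : ℝ) ^ 2) := by gcongr
    _ = (E : ℝ) * N + (E : ℝ) ^ 4 := by ring

/-- the rectangle sum -/
noncomputable def R (S T : Finset ℕ) (a b : ℕ → ℝ) : ℝ := ∑ d ∈ S, ∑ e ∈ T, a d * b e * J d e

/-- long first variable -/
lemma rectA (D E : ℕ) (S T : Finset ℕ) (hS : ∀ d ∈ S, 1 ≤ d ∧ d ≤ D)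
    (hT : ∀ e ∈ T, 1 ≤ e ∧ e ≤ E ∧ Odd e ∧ Squarefree e)
    (a b : ℕ → ℝ) (ha : ∀ d, |a d| ≤ 1) (hb : ∀ e, |b e| ≤ 1) (hE : 1 ≤ E) (hDE : E ^ 4 ≤ D) :
    (R S T a b) ^ 2 ≤ 3 * E * (D : ℝ) ^ 2 := by
  have hSsub : S ⊆ Finset.Icc 1 D := by
    intro d hd
    rw [Finset.mem_Icc]
    exact hS d hd
  have hcard : (S.card : ℝ) ≤ D := by
    have := Finset.card_le_card hSsub
    rw [Nat.card_Icc] at this
    exact_mod_cast this
  have h1 : R S T a b = ∑ d ∈ S, a d * ∑ e ∈ T, b e * J d e := by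
    unfold R
    apply Finset.sum_congr rfl
    intro d _
    rw [Finset.mul_sum]
    apply Finset.sum_congr rfl
    intro e _
    ring
  rw [h1]
  have h2 := Finset.sum_mul_sq_le_sq_mul_sq S a (fun d => ∑ e ∈ T, b e * J d e)
  refine h2.trans ?_
  have h3 : ∑ d ∈ S, a d ^ 2 ≤ D := by
    refine (Finset.sum_le_sum (fun d _ => (?_ : a d ^ 2 ≤ 1))).trans ?_
    · have := ha d
      rw [← sq_abs]
      exact pow_le_one₀ (abs_nonneg _) this
    · simpa using hcard
  have h4 : ∑ d ∈ S, (∑ e ∈ T, b e * J d e) ^ 2 ≤ (E : ℝ) * ((D + 1 : ℕ) : ℝ) + (E : ℝ) ^ 4 := by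
    refine le_trans ?_ (U2 E T hT b hb (D + 1))
    apply Finset.sum_le_sum_of_subset_of_nonneg
    · intro d hd
      have := hS d hd
      rw [mem_range]; omega
    · intro d _ _
      positivity
  have hD1 : (1 : ℝ) ≤ D := by
    have : 1 ≤ E ^ 4 := Nat.one_le_pow _ _ hE
    exact_mod_cast this.trans hDE
  have hE1 : (1 : ℝ) ≤ E := by exact_mod_cast hE
  have hDE' : (E : ℝ) ^ 4 ≤ D := by exact_mod_cast hDE
  calc (∑ d ∈ S, a d ^ 2) * ∑ d ∈ S, (∑ e ∈ T, b e * J d e) ^ 2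
      ≤ D * ((E : ℝ) * ((D + 1 : ℕ) : ℝ) + (E : ℝ) ^ 4) := by
        apply mul_le_mul h3 h4
        · exact Finset.sum_nonneg (fun _ _ => sq_nonneg _)
        · positivity
    _ ≤ D * ((E : ℝ) * (2 * D) + E * D) := by
        gcongr
        · push_cast; linarith
        · nlinarith
    _ = 3 * E * (D : ℝ) ^ 2 := by ring

lemma sq_expand {ι : Type*} (S : Finset ι) (c : ι → ℝ) (f : ι → ℕ) (e : ℕ) :
    (∑ i ∈ S, c i * J (f i) e) ^ 2
      = ∑ p ∈ S ×ˢ S, (c p.1 * c p.2) * J (f p.1 * f p.2) e := by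
  rw [sq, Finset.sum_mul_sum, ← Finset.sum_product']
  apply Finset.sum_congr rfl
  intro p _
  rw [J_mul_left]
  ring

/-- balanced rectangle, with a bound `K` for the fourth power of the divisor function -/
lemma rectB (D E : ℕ) (S T : Finset ℕ) (hS : ∀ d ∈ S, 1 ≤ d ∧ d ≤ D)
    (hT : ∀ e ∈ T, 1 ≤ e ∧ e ≤ E ∧ Odd e ∧ Squarefree e)
    (a b : ℕ → ℝ) (ha : ∀ d, |a d| ≤ 1) (hb : ∀ e, |b e| ≤ 1) (hE : 1 ≤ E) (hDE : E ≤ D)
    (K : ℝ) (hK0 : 0 ≤ K)
    (hK : ∀ m : ℕ, m ≠ 0 → m ≤ D ^ 4 → ((m.divisors.card : ℝ)) ^ 4 ≤ K) :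
    (R S T a b) ^ 8 ≤ 3 * K * (E : ℝ) ^ 7 * (D : ℝ) ^ 8 := by
  have hSsub : S ⊆ Finset.Icc 1 D := by
    intro d hd
    rw [Finset.mem_Icc]
    exact hS d hd
  have hcard : (S.card : ℝ) ≤ D := by
    have := Finset.card_le_card hSsub
    rw [Nat.card_Icc] at this
    exact_mod_cast this
  have hTcard : (T.card : ℝ) ≤ E := by
    have h1 : T ⊆ Finset.Icc 1 E := by
      intro e he
      rw [Finset.mem_Icc]
      exact ⟨(hT e he).1, (hT e he).2.1⟩
    have := Finset.card_le_card h1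
    rw [Nat.card_Icc] at this
    exact_mod_cast this
  set A : ℕ → ℝ := fun e => ∑ d ∈ S, a d * J d e with hA
  have h1 : R S T a b = ∑ e ∈ T, b e * A e := by
    unfold R
    rw [Finset.sum_comm]
    apply Finset.sum_congr rfl
    intro e _
    rw [hA, Finset.mul_sum]
    apply Finset.sum_congr rfl
    intro d _
    ring
  have hb2 : ∀ e, b e ^ 2 ≤ 1 := by
    intro e
    rw [← sq_abs]
    exact pow_le_one₀ (abs_nonneg _) (hb e)
  -- first Cauchy
  have h2 : (R S T a b) ^ 2 ≤ E * ∑ e ∈ T, A e ^ 2 := by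
    rw [h1]
    refine (Finset.sum_mul_sq_le_sq_mul_sq T b A).trans ?_
    gcongr
    refine (Finset.sum_le_sum (fun e _ => hb2 e)).trans ?_
    simpa using hTcard
  have h3 : (∑ e ∈ T, A e ^ 2) ^ 2 ≤ E * ∑ e ∈ T, A e ^ 4 := by
    have h := Finset.sum_mul_sq_le_sq_mul_sq T (fun _ => (1 : ℝ)) (fun e => A e ^ 2)
    simp only [one_mul, one_pow, sum_const, nsmul_eq_mul, mul_one] at h
    have h' : ∑ e ∈ T, (A e ^ 2) ^ 2 = ∑ e ∈ T, A e ^ 4 := by
      apply Finset.sum_congr rfl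
      intro e _
      ring
    rw [h'] at h
    refine h.trans ?_
    gcongr
  -- expand the fourth power
  set S4 := (S ×ˢ S) ×ˢ (S ×ˢ S) with hS4
  set f : (ℕ × ℕ) × (ℕ × ℕ) → ℕ := fun q => (q.1.1 * q.1.2) * (q.2.1 * q.2.2) with hf
  set c : (ℕ × ℕ) × (ℕ × ℕ) → ℝ := fun q => (a q.1.1 * a q.1.2) * (a q.2.1 * a q.2.2) with hc
  have hc1 : ∀ q, |c q| ≤ 1 := by
    intro q
    rw [hc]
    simp only [abs_mul]
    exact mul_le_one₀ (mul_le_one₀ (ha _) (abs_nonneg _) (ha _)) (by positivity)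
      (mul_le_one₀ (ha _) (abs_nonneg _) (ha _))
  have h4 : ∀ e, A e ^ 4 = ∑ q ∈ S4, c q * J (f q) e := by
    intro e
    have e1 : A e ^ 4 = (A e ^ 2) ^ 2 := by ring
    rw [e1, hA]
    simp only
    rw [sq_expand S a (fun d => d) e,
      sq_expand (S ×ˢ S) (fun p => a p.1 * a p.2) (fun p => p.1 * p.2) e]
  set U : ℕ → ℝ := fun m => ∑ e ∈ T, (1 : ℝ) * J m e with hU
  have h5 : ∑ e ∈ T, A e ^ 4 = ∑ q ∈ S4, c q * U (f q) := by
    rw [Finset.sum_congr rfl (fun e _ => h4 e), Finset.sum_comm]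
    apply Finset.sum_congr rfl
    intro q _
    rw [hU]
    simp only [one_mul]
    rw [Finset.mul_sum]
  have h6 : (∑ e ∈ T, A e ^ 4) ^ 2 ≤ (D : ℝ) ^ 4 * ∑ q ∈ S4, U (f q) ^ 2 := by
    rw [h5]
    refine (Finset.sum_mul_sq_le_sq_mul_sq S4 c (fun q => U (f q))).trans ?_
    gcongr
    refine (Finset.sum_le_sum (fun q _ => (?_ : c q ^ 2 ≤ 1))).trans ?_
    · rw [← sq_abs]
      exact pow_le_one₀ (abs_nonneg _) (hc1 q)
    · rw [Finset.sum_const, nsmul_eq_mul, mul_one, hS4, Finset.card_product, Finset.card_product]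
      push_cast
      calc (S.card : ℝ) * S.card * (S.card * S.card) ≤ (D : ℝ) * D * (D * D) := by gcongr
        _ = (D : ℝ) ^ 4 := by ring
  have hmaps : ∀ q ∈ S4, f q ∈ range (D ^ 4 + 1) := by
    intro q hq
    rw [hS4, Finset.mem_product, Finset.mem_product, Finset.mem_product] at hq
    obtain ⟨⟨h11, h12⟩, h21, h22⟩ := hq
    rw [mem_range, hf]
    simp only
    have := Nat.mul_le_mul (Nat.mul_le_mul (hS _ h11).2 (hS _ h12).2)
      (Nat.mul_le_mul (hS _ h21).2 (hS _ h22).2)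
    have e1 : D * D * (D * D) = D ^ 4 := by ring
    omega
  have h7 : ∑ q ∈ S4, U (f q) ^ 2 ≤ K * ∑ m ∈ range (D ^ 4 + 1), U m ^ 2 := by
    rw [← Finset.sum_fiberwise_of_maps_to hmaps, Finset.mul_sum]
    apply Finset.sum_le_sum
    intro m hm
    rw [Finset.sum_congr rfl (g := fun _ => U m ^ 2) (by
      intro q hq
      rw [(Finset.mem_filter.1 hq).2])]
    rw [Finset.sum_const, nsmul_eq_mul]
    apply mul_le_mul_of_nonneg_right _ (sq_nonneg _)
    by_cases hm0 : m = 0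
    · have : S4.filter (fun q => f q = m) = ∅ := by
        rw [Finset.filter_eq_empty_iff]
        intro q hq h
        rw [hS4, Finset.mem_product, Finset.mem_product, Finset.mem_product] at hq
        obtain ⟨⟨h11, h12⟩, h21, h22⟩ := hq
        have g1 := (hS _ h11).1
        have g2 := (hS _ h12).1
        have g3 := (hS _ h21).1
        have g4 := (hS _ h22).1
        rw [hm0, hf] at h
        simp only [mul_eq_zero] at h
        omega
      rw [this]
      simpa using hK0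
    · refine le_trans ?_ (hK m hm0 (by rw [mem_range] at hm; omega))
      have hsub : S4.filter (fun q => f q = m) ⊆
          (m.divisors ×ˢ m.divisors) ×ˢ (m.divisors ×ˢ m.divisors) := by
        intro q hq
        have h := (Finset.mem_filter.1 hq).2
        rw [hf] at h
        simp only at h
        simp only [Finset.mem_product, Nat.mem_divisors]
        refine ⟨⟨⟨?_, hm0⟩, ⟨?_, hm0⟩⟩, ⟨⟨?_, hm0⟩, ⟨?_, hm0⟩⟩⟩
        · exact ⟨q.1.2 * (q.2.1 * q.2.2), by rw [← h]; ring⟩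
        · exact ⟨q.1.1 * (q.2.1 * q.2.2), by rw [← h]; ring⟩
        · exact ⟨q.1.1 * q.1.2 * q.2.2, by rw [← h]; ring⟩
        · exact ⟨q.1.1 * q.1.2 * q.2.1, by rw [← h]; ring⟩
      have h8 := Finset.card_le_card hsub
      rw [Finset.card_product, Finset.card_product] at h8
      calc ((S4.filter (fun q => f q = m)).card : ℝ)
          ≤ ((m.divisors.card * m.divisors.card * (m.divisors.card * m.divisors.card) : ℕ) : ℝ) := by
            exact_mod_cast h8
        _ = (m.divisors.card : ℝ) ^ 4 := by push_cast; ring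
  have h8 := U2 E T hT (fun _ => 1) (by intro e; simp) (D ^ 4 + 1)
  have hD1 : (1 : ℝ) ≤ D := by exact_mod_cast hE.trans hDE
  have hE1 : (1 : ℝ) ≤ E := by exact_mod_cast hE
  have hDE' : (E : ℝ) ≤ D := by exact_mod_cast hDE
  have h9 : (∑ e ∈ T, A e ^ 4) ^ 2 ≤ (D : ℝ) ^ 4 * (K * (3 * E * (D : ℝ) ^ 4)) := by
    refine h6.trans ?_
    gcongr
    refine h7.trans ?_
    gcongr
    refine h8.trans ?_
    push_cast
    have g1 : (E : ℝ) ^ 4 ≤ E * (D : ℝ) ^ 4 := by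
      calc (E : ℝ) ^ 4 ≤ (D : ℝ) ^ 4 := by gcongr
        _ = 1 * (D : ℝ) ^ 4 := by ring
        _ ≤ E * (D : ℝ) ^ 4 := by gcongr
    have g2 : (E : ℝ) ≤ E * (D : ℝ) ^ 4 := by
      calc (E : ℝ) = E * 1 := by ring
        _ ≤ E * (D : ℝ) ^ 4 := by gcongr; exact one_le_pow₀ hD1
    linarith
  calc (R S T a b) ^ 8 = ((R S T a b) ^ 2) ^ 4 := by ring
    _ ≤ (E * ∑ e ∈ T, A e ^ 2) ^ 4 := by gcongr
    _ = (E : ℝ) ^ 4 * ((∑ e ∈ T, A e ^ 2) ^ 2) ^ 2 := by ring
    _ ≤ (E : ℝ) ^ 4 * (E * ∑ e ∈ T, A e ^ 4) ^ 2 := by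
        gcongr
    _ = (E : ℝ) ^ 6 * (∑ e ∈ T, A e ^ 4) ^ 2 := by ring
    _ ≤ (E : ℝ) ^ 6 * ((D : ℝ) ^ 4 * (K * (3 * E * (D : ℝ) ^ 4))) := by gcongr
    _ = 3 * K * (E : ℝ) ^ 7 * (D : ℝ) ^ 8 := by ring

end Vale.Agent.P014.H580
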