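import Mathlib
import Vale.Agent.P014.H580.J1
import Vale.Agent.P319.RB.H591.Div

/-!
Bilinear sums of Jacobi symbols over rectangles: the final estimate.
-/

namespace Vale.Agent.P014.H580

open Finset

/-- the estimate for `E ≤ D` -/
lemma rectC : ∃ C : ℝ, 1 ≤ C ∧ ∀ (D E : ℕ) (S T : Finset ℕ), (∀ d ∈ S, 1 ≤ d ∧ d ≤ D) →
    (∀ e ∈ T, 1 ≤ e ∧ e ≤ E ∧ Odd e ∧ Squarefree e) →
    ∀ (a b : ℕ → ℝ), (∀ d, |a d| ≤ 1) → (∀ e, |b e| ≤ 1) → 1 ≤ E → E ≤ D →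
    (R S T a b) ^ 16 ≤ C * (E : ℝ) ^ 15 * (D : ℝ) ^ 16 := by
  obtain ⟨C0, hC0, hdiv⟩ := Vale.Agent.P319.RB.divisor_bound (1 / 128) (by norm_num)
  refine ⟨9 * C0 ^ 8 + 3 ^ 8, ?_, ?_⟩
  · have : (0 : ℝ) ≤ 9 * C0 ^ 8 := by positivity
    linarith
  intro D E S T hS hT a b ha hb hE hDE
  have hD1 : (1 : ℝ) ≤ D := by exact_mod_cast hE.trans hDE
  have hE1 : (1 : ℝ) ≤ E := by exact_mod_cast hE
  have hE0 : (0 : ℝ) ≤ E := by linarith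
  have hD0 : (0 : ℝ) ≤ D := by linarith
  have hC00 : 0 ≤ C0 := by linarith
  by_cases h : E ^ 4 ≤ D
  · have h1 := rectA D E S T hS hT a b ha hb hE h
    calc (R S T a b) ^ 16 = ((R S T a b) ^ 2) ^ 8 := by ring
      _ ≤ (3 * E * (D : ℝ) ^ 2) ^ 8 := by gcongr
      _ = 3 ^ 8 * (E : ℝ) ^ 8 * (D : ℝ) ^ 16 := by ring
      _ ≤ (9 * C0 ^ 8 + 3 ^ 8) * (E : ℝ) ^ 15 * (D : ℝ) ^ 16 := by
        gcongr
        · have : (0 : ℝ) ≤ 9 * C0 ^ 8 := by positivity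
          linarith
        · norm_num
  · push Not at h
    have hK : ∀ m : ℕ, m ≠ 0 → m ≤ D ^ 4 →
        ((m.divisors.card : ℝ)) ^ 4 ≤ C0 ^ 4 * (E : ℝ) ^ ((1 : ℝ) / 2) := by
      intro m hm0 hm
      have h1 := hdiv m hm0
      have h2 : (m : ℝ) ≤ (E : ℝ) ^ (16 : ℕ) := by
        have : m ≤ E ^ 16 := by
          calc m ≤ D ^ 4 := hm
            _ ≤ (E ^ 4) ^ 4 := Nat.pow_le_pow_left h.le 4
            _ = E ^ 16 := by ring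
        exact_mod_cast this
      have h3 : (m : ℝ) ^ ((1 : ℝ) / 128) ≤ (E : ℝ) ^ ((1 : ℝ) / 8) := by
        calc (m : ℝ) ^ ((1 : ℝ) / 128) ≤ ((E : ℝ) ^ (16 : ℕ)) ^ ((1 : ℝ) / 128) :=
              Real.rpow_le_rpow (by positivity) h2 (by norm_num)
          _ = (E : ℝ) ^ ((1 : ℝ) / 8) := by
              rw [← Real.rpow_natCast, ← Real.rpow_mul hE0]
              norm_num
      calc ((m.divisors.card : ℝ)) ^ 4 ≤ (C0 * (m : ℝ) ^ ((1 : ℝ) / 128)) ^ 4 := by gcongr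
        _ ≤ (C0 * (E : ℝ) ^ ((1 : ℝ) / 8)) ^ 4 := by gcongr
        _ = C0 ^ 4 * ((E : ℝ) ^ ((1 : ℝ) / 8)) ^ (4 : ℕ) := by ring
        _ = C0 ^ 4 * (E : ℝ) ^ ((1 : ℝ) / 2) := by
            rw [← Real.rpow_natCast ((E : ℝ) ^ ((1 : ℝ) / 8)) 4, ← Real.rpow_mul hE0]
            norm_num
    have h1 := rectB D E S T hS hT a b ha hb hE hDE _ (by positivity) hK
    have h2 : ((E : ℝ) ^ ((1 : ℝ) / 2)) ^ 2 = E := by
      rw [← Real.rpow_natCast, ← Real.rpow_mul hE0]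
      norm_num
    calc (R S T a b) ^ 16 = ((R S T a b) ^ 8) ^ 2 := by ring
      _ ≤ (3 * (C0 ^ 4 * (E : ℝ) ^ ((1 : ℝ) / 2)) * (E : ℝ) ^ 7 * (D : ℝ) ^ 8) ^ 2 := by
        have : 0 ≤ (R S T a b) ^ 8 := by positivity
        gcongr
      _ = 9 * C0 ^ 8 * ((E : ℝ) ^ ((1 : ℝ) / 2)) ^ 2 * (E : ℝ) ^ 14 * (D : ℝ) ^ 16 := by ring
      _ = 9 * C0 ^ 8 * (E : ℝ) ^ 15 * (D : ℝ) ^ 16 := by rw [h2]; ring
      _ ≤ (9 * C0 ^ 8 + 3 ^ 8) * (E : ℝ) ^ 15 * (D : ℝ) ^ 16 := by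
        gcongr
        norm_num

/-- the character modulo four on odd numbers -/
noncomputable def x4 (d : ℕ) : ℝ := (-1) ^ (d / 2)

lemma x4_abs (d : ℕ) : |x4 d| = 1 := by
  unfold x4
  rw [abs_pow]
  simp

lemma x4_cases (d : ℕ) : x4 d = 1 ∨ x4 d = -1 := neg_one_pow_eq_or ℝ _

lemma recip {d e : ℕ} (hd : Odd d) (he : Odd e) :
    J d e = (1 / 2) * (1 + x4 d + x4 e - x4 d * x4 e) * J e d := by
  have h := jacobiSym.quadratic_reciprocity hd he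
  unfold J
  rw [h]
  push_cast
  congr 1
  rw [pow_mul]
  have hx : ((-1 : ℝ) ^ (d / 2)) = x4 d := rfl
  rw [hx]
  rcases x4_cases d with h1 | h1
  · rw [h1]
    simp
    norm_num
  · rw [h1]
    have hy : ((-1 : ℝ) ^ (e / 2)) = x4 e := rfl
    rw [hy]
    ring

lemma R_flip (S T : Finset ℕ) (hS : ∀ d ∈ S, Odd d) (hT : ∀ e ∈ T, Odd e) (a b : ℕ → ℝ) :
    R S T a b = (1 / 2) * (R T S b a + R T S b (fun d => x4 d * a d) +
      R T S (fun e => x4 e * b e) a - R T S (fun e => x4 e * b e) (fun d => x4 d * a d)) := by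
  unfold R
  rw [Finset.sum_comm, ← Finset.sum_add_distrib, ← Finset.sum_add_distrib,
    ← Finset.sum_sub_distrib, Finset.mul_sum]
  apply Finset.sum_congr rfl
  intro e he
  rw [← Finset.sum_add_distrib, ← Finset.sum_add_distrib,
    ← Finset.sum_sub_distrib, Finset.mul_sum]
  apply Finset.sum_congr rfl
  intro d hd
  rw [recip (hS d hd) (hT e he)]
  ring

/-- the rectangle bound -/
theorem rect : ∃ C : ℝ, 1 ≤ C ∧ ∀ (D E m : ℕ) (S T : Finset ℕ),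
    (∀ d ∈ S, 1 ≤ d ∧ d ≤ D ∧ Odd d ∧ Squarefree d) →
    (∀ e ∈ T, 1 ≤ e ∧ e ≤ E ∧ Odd e ∧ Squarefree e) →
    ∀ (a b : ℕ → ℝ), (∀ d, |a d| ≤ 1) → (∀ e, |b e| ≤ 1) → 1 ≤ m → m ≤ D → m ≤ E →
    |R S T a b| ≤ C * D * E * (m : ℝ) ^ (-(1 : ℝ) / 16) := by
  obtain ⟨C, hC, hR⟩ := rectC
  refine ⟨2 * C, by linarith, ?_⟩
  intro D E m S T hS hT a b ha hb hm hmD hmE
  have hm0 : (0 : ℝ) < m := by exact_mod_cast hm
  have hC0 : (0 : ℝ) ≤ C := by linarith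
  have hE1 : (1 : ℝ) ≤ E := by exact_mod_cast hm.trans hmE
  have hD1 : (1 : ℝ) ≤ D := by exact_mod_cast hm.trans hmD
  have hxa : ∀ a : ℕ → ℝ, (∀ d, |a d| ≤ 1) → ∀ d, |x4 d * a d| ≤ 1 := by
    intro a ha d
    rw [abs_mul, x4_abs, one_mul]
    exact ha d
  have hroot : ∀ x y z : ℝ, 0 ≤ x → 1 ≤ y → x ^ 16 ≤ C * y ^ 16 / m → x ≤ C * y * (m : ℝ) ^ (-(1 : ℝ) / 16) := by
    intro x y z hx hy h
    have h1 : ((m : ℝ) ^ (-(1 : ℝ) / 16)) ^ 16 = (m : ℝ)⁻¹ := by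
      rw [← Real.rpow_natCast, ← Real.rpow_mul hm0.le]
      norm_num
      rw [Real.rpow_neg_one]
    have h2 : x ^ 16 ≤ (C * y * (m : ℝ) ^ (-(1 : ℝ) / 16)) ^ 16 := by
      rw [mul_pow, h1, mul_pow]
      refine h.trans ?_
      rw [div_eq_mul_inv]
      gcongr
      exact le_self_pow₀ hC (by norm_num)
    exact le_of_pow_le_pow_left₀ (by norm_num) (by positivity) h2
  have hdown : ∀ (D E : ℕ), 1 ≤ E → m ≤ E → ∀ x : ℝ, x ^ 16 ≤ C * (E : ℝ) ^ 15 * (D : ℝ) ^ 16 →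
      x ^ 16 ≤ C * ((D : ℝ) * E) ^ 16 / m := by
    intro D E hE hmE x hx
    rw [le_div_iff₀ hm0]
    calc x ^ 16 * m ≤ (C * (E : ℝ) ^ 15 * (D : ℝ) ^ 16) * E := by gcongr
      _ = C * ((D : ℝ) * E) ^ 16 := by ring
  rcases le_total E D with hDE | hDE
  · have h1 := hR D E S T (fun d hd => ⟨(hS d hd).1, (hS d hd).2.1⟩) hT a b ha hb
      (hm.trans hmE) hDE
    have h2 := hdown D E (hm.trans hmE) hmE _ h1
    have h3 := hroot |R S T a b| ((D : ℝ) * E) 0 (abs_nonneg _) (by nlinarith) (by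
      rw [Even.pow_abs (by decide)]
      exact h2)
    calc |R S T a b| ≤ C * ((D : ℝ) * E) * (m : ℝ) ^ (-(1 : ℝ) / 16) := h3
      _ = 1 * (C * D * E * (m : ℝ) ^ (-(1 : ℝ) / 16)) := by ring
      _ ≤ 2 * (C * D * E * (m : ℝ) ^ (-(1 : ℝ) / 16)) := by gcongr; norm_num
      _ = 2 * C * D * E * (m : ℝ) ^ (-(1 : ℝ) / 16) := by ring
  · have key : ∀ a b : ℕ → ℝ, (∀ d, |a d| ≤ 1) → (∀ e, |b e| ≤ 1) →
        |R T S b a| ≤ C * ((D : ℝ) * E) * (m : ℝ) ^ (-(1 : ℝ) / 16) := by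
      intro a b ha hb
      have h1 := hR E D T S (fun d hd => ⟨(hT d hd).1, (hT d hd).2.1⟩) hS b a hb ha
        (hm.trans hmD) hDE
      have h2 := hdown E D (hm.trans hmD) hmD _ h1
      have h3 := hroot |R T S b a| ((E : ℝ) * D) 0 (abs_nonneg _) (by nlinarith) (by
        rw [Even.pow_abs (by decide)]
        exact h2)
      rw [mul_comm (D : ℝ) E]
      exact h3
    rw [R_flip S T (fun d hd => (hS d hd).2.2.1) (fun e he => (hT e he).2.2.1)]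
    have k1 := key a b ha hb
    have k2 := key _ b (hxa a ha) hb
    have k3 := key a _ ha (hxa b hb)
    have k4 := key _ _ (hxa a ha) (hxa b hb)
    rw [abs_le] at k1 k2 k3 k4 ⊢
    constructor <;> nlinarith [k1.1, k1.2, k2.1, k2.2, k3.1, k3.2, k4.1, k4.2]

end Vale.Agent.P014.H580
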