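import Mathlib
import Vale.Agent.P014.H580.J2

/-!
Bilinear sums of Jacobi symbols under a hyperbola.
-/

namespace Vale.Agent.P014.H580

open Finset

lemma harm_le (N : ℕ) : ∑ e ∈ Icc 1 N, (1 : ℝ) / e ≤ 1 + Real.log N := by
  have h := harmonic_le_one_add_log N
  rw [harmonic_eq_sum_Icc] at h
  push_cast at h
  simpa [one_div] using h

/-- the bilinear bound under the hyperbola -/
theorem bilin : ∃ C : ℝ, 1 ≤ C ∧ ∀ (N Z : ℕ) (a b : ℕ → ℝ), (∀ d, |a d| ≤ 1) → (∀ e, |b e| ≤ 1) →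
    (∀ d, a d ≠ 0 → Odd d ∧ Squarefree d ∧ Z ≤ d) → (∀ e, b e ≠ 0 → Odd e ∧ Squarefree e ∧ Z ≤ e) →
    1 ≤ Z → 1 ≤ N →
    |∑ e ∈ Icc 1 N, ∑ d ∈ Icc 1 (N / e), a d * b e * J d e|
      ≤ C * N * (1 + Real.log N) * (Z : ℝ) ^ (-(1 : ℝ) / 32) := by
  obtain ⟨C, hC, hR⟩ := rect
  refine ⟨2 * C + 2, by linarith, ?_⟩
  intro N Z a b ha hb hsa hsb hZ hN
  have hN1 : (1 : ℝ) ≤ N := by exact_mod_cast hN
  have hN0 : (0 : ℝ) < N := by linarith
  have hZ1 : (1 : ℝ) ≤ Z := by exact_mod_cast hZ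
  have hZ0 : (0 : ℝ) < Z := by linarith
  have hlogN : 0 ≤ Real.log N := Real.log_nonneg hN1
  set M : ℕ := ⌈(Z : ℝ) ^ ((1 : ℝ) / 32)⌉₊ with hM
  have hZr : 1 ≤ (Z : ℝ) ^ ((1 : ℝ) / 32) := Real.one_le_rpow hZ1 (by norm_num)
  have hM1 : (Z : ℝ) ^ ((1 : ℝ) / 32) ≤ M := Nat.le_ceil _
  have hM2 : (M : ℝ) ≤ 2 * (Z : ℝ) ^ ((1 : ℝ) / 32) := by
    have := (Nat.ceil_lt_add_one (by positivity : 0 ≤ (Z : ℝ) ^ ((1 : ℝ) / 32))).le
    linarith
  have hM0 : (0 : ℝ) < M := by linarith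
  have hM1' : (1 : ℝ) ≤ M := by linarith
  -- the class of e
  set cl : ℕ → ℕ := fun e => ⌊(M : ℝ) * Real.log e⌋₊ with hcl
  set L : ℕ := ⌊(M : ℝ) * Real.log N⌋₊ with hL
  set B : ℕ → ℝ := fun l => Real.exp (((l : ℝ) + 1) / M) with hB
  have hB0 : ∀ l, 0 < B l := fun l => Real.exp_pos _
  set Dl : ℕ → ℕ := fun l => ⌊(N : ℝ) / B l⌋₊ with hDl
  have hclL : ∀ e ∈ Icc 1 N, cl e ∈ range (L + 1) := by
    intro e he
    rw [Finset.mem_Icc] at he
    have he1 : (1 : ℝ) ≤ e := by exact_mod_cast he.1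
    have he2 : (e : ℝ) ≤ N := by exact_mod_cast he.2
    rw [mem_range, Nat.lt_succ_iff, hcl, hL]
    apply Nat.floor_le_floor
    gcongr
  -- e lies below B (cl e)
  have heB : ∀ e : ℕ, 1 ≤ e → (e : ℝ) ≤ B (cl e) := by
    intro e he
    have he1 : (1 : ℝ) ≤ e := by exact_mod_cast he
    have h1 : (M : ℝ) * Real.log e < cl e + 1 := Nat.lt_floor_add_one _
    have h2 : Real.log e ≤ ((cl e : ℝ) + 1) / M := by
      rw [le_div_iff₀ hM0]
      linarith
    calc (e : ℝ) = Real.exp (Real.log e) := (Real.exp_log (by linarith)).symm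
      _ ≤ _ := Real.exp_le_exp.2 h2
  have heB' : ∀ e : ℕ, 1 ≤ e → B (cl e) ≤ e * Real.exp (1 / M) := by
    intro e he
    have he1 : (1 : ℝ) ≤ e := by exact_mod_cast he
    have h1 : (cl e : ℝ) ≤ (M : ℝ) * Real.log e := Nat.floor_le (by
      have := Real.log_nonneg he1
      positivity)
    have h2 : ((cl e : ℝ) + 1) / M ≤ Real.log e + 1 / M := by
      rw [add_div]
      have : (cl e : ℝ) / M ≤ Real.log e := by
        rw [div_le_iff₀ hM0]
        linarith
      linarith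
    calc B (cl e) ≤ Real.exp (Real.log e + 1 / M) := Real.exp_le_exp.2 h2
      _ = e * Real.exp (1 / M) := by rw [Real.exp_add, Real.exp_log (by linarith)]
  have hDle : ∀ e : ℕ, 1 ≤ e → Dl (cl e) ≤ N / e := by
    intro e he
    have he1 : (1 : ℝ) ≤ e := by exact_mod_cast he
    rw [Nat.le_div_iff_mul_le (by omega)]
    have h1 : (Dl (cl e) : ℝ) ≤ (N : ℝ) / B (cl e) := Nat.floor_le (by
      have := hB0 (cl e)
      positivity)
    have h2 : (Dl (cl e) : ℝ) * e ≤ N := by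
      calc (Dl (cl e) : ℝ) * e ≤ (N : ℝ) / B (cl e) * B (cl e) := by
            have := hB0 (cl e)
            have := heB e he
            gcongr
        _ = N := by
            have := (hB0 (cl e)).ne'
            field_simp
    exact_mod_cast h2
  -- splitting of the inner sum
  have hsplit : ∀ e ∈ Icc 1 N, ∑ d ∈ Icc 1 (N / e), a d * b e * J d e
      = ∑ d ∈ Icc 1 (Dl (cl e)), a d * b e * J d e
        + ∑ d ∈ Ioc (Dl (cl e)) (N / e), a d * b e * J d e := by
    intro e he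
    rw [Finset.mem_Icc] at he
    have h1 := hDle e he.1
    rw [← Finset.sum_union]
    · congr 1
      ext x
      simp only [mem_Icc, mem_union, mem_Ioc]
      omega
    · rw [Finset.disjoint_left]
      intro x hx hx'
      simp only [mem_Icc, mem_Ioc] at hx hx'
      omega
  rw [Finset.sum_congr rfl hsplit, Finset.sum_add_distrib]
  -- first part
  have hfirst : |∑ e ∈ Icc 1 N, ∑ d ∈ Icc 1 (Dl (cl e)), a d * b e * J d e|
      ≤ ((L : ℝ) + 1) * (C * N * (Z : ℝ) ^ (-(1 : ℝ) / 16)) := by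
    rw [← Finset.sum_fiberwise_of_maps_to hclL]
    refine (Finset.abs_sum_le_sum_abs _ _).trans ?_
    have hpiece : ∀ l ∈ range (L + 1),
        |∑ e ∈ Icc 1 N with cl e = l, ∑ d ∈ Icc 1 (Dl (cl e)), a d * b e * J d e|
          ≤ C * N * (Z : ℝ) ^ (-(1 : ℝ) / 16) := by
      intro l _
      set S := (Icc 1 (Dl l)).filter (fun d => a d ≠ 0) with hS
      set T := ((Icc 1 N).filter (fun e => cl e = l)).filter (fun e => b e ≠ 0) with hT
      have h1 : ∑ e ∈ Icc 1 N with cl e = l, ∑ d ∈ Icc 1 (Dl (cl e)), a d * b e * J d e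
          = R S T a b := by
        unfold R
        rw [Finset.sum_comm (s := S)]
        have h2 : ∀ e ∈ (Icc 1 N).filter (fun e => cl e = l),
            ∑ d ∈ Icc 1 (Dl (cl e)), a d * b e * J d e = ∑ d ∈ S, a d * b e * J d e := by
          intro e he
          rw [(Finset.mem_filter.1 he).2, hS, Finset.sum_filter]
          apply Finset.sum_congr rfl
          intro d _
          by_cases h : a d = 0
          · simp [h]
          · simp [h]
        rw [Finset.sum_congr rfl h2, hT]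
        symm
        rw [Finset.sum_filter]
        apply Finset.sum_congr rfl
        intro e _
        by_cases h : b e = 0
        · simp [h]
        · simp [h]
      rw [h1]
      by_cases hSe : S = ∅
      · rw [hSe]
        simp only [R, Finset.sum_empty, abs_zero]
        positivity
      by_cases hTe : T = ∅
      · rw [hTe]
        simp only [R, Finset.sum_empty, Finset.sum_const_zero, abs_zero]
        positivity
      obtain ⟨d0, hd0⟩ := Finset.nonempty_iff_ne_empty.2 hSe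
      obtain ⟨e0, he0⟩ := Finset.nonempty_iff_ne_empty.2 hTe
      have hZD : Z ≤ Dl l := by
        rw [hS, Finset.mem_filter, Finset.mem_Icc] at hd0
        exact ((hsa d0 hd0.2).2.2).trans hd0.1.2
      have hTB : ∀ e ∈ T, e ≤ ⌊B l⌋₊ := by
        intro e he
        rw [hT, Finset.mem_filter, Finset.mem_filter, Finset.mem_Icc] at he
        apply Nat.le_floor
        rw [← he.1.2]
        exact heB e he.1.1.1
      have hZE : Z ≤ ⌊B l⌋₊ := by
        refine le_trans ?_ (hTB e0 he0)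
        rw [hT, Finset.mem_filter] at he0
        exact (hsb e0 he0.2).2.2
      have h3 := hR (Dl l) ⌊B l⌋₊ Z S T (by
        intro d hd
        rw [hS, Finset.mem_filter, Finset.mem_Icc] at hd
        exact ⟨hd.1.1, hd.1.2, (hsa d hd.2).1, (hsa d hd.2).2.1⟩) (by
        intro e he
        have h4 := hTB e he
        rw [hT, Finset.mem_filter, Finset.mem_filter, Finset.mem_Icc] at he
        exact ⟨he.1.1.1, h4, (hsb e he.2).1, (hsb e he.2).2.1⟩) a b ha hb hZ hZD hZE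
      refine h3.trans ?_
      have h5 : (Dl l : ℝ) ≤ (N : ℝ) / B l := Nat.floor_le (by
        have := hB0 l
        positivity)
      have h6 : ((⌊B l⌋₊ : ℕ) : ℝ) ≤ B l := Nat.floor_le (hB0 l).le
      have h7 : (Dl l : ℝ) * ((⌊B l⌋₊ : ℕ) : ℝ) ≤ N := by
        calc (Dl l : ℝ) * ((⌊B l⌋₊ : ℕ) : ℝ) ≤ (N : ℝ) / B l * B l := by
              have := hB0 l
              gcongr
          _ = N := by
              have := (hB0 l).ne'
              field_simp
      calc C * (Dl l : ℝ) * ((⌊B l⌋₊ : ℕ) : ℝ) * (Z : ℝ) ^ (-(1 : ℝ) / 16)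
          = C * ((Dl l : ℝ) * ((⌊B l⌋₊ : ℕ) : ℝ)) * (Z : ℝ) ^ (-(1 : ℝ) / 16) := by ring
        _ ≤ C * N * (Z : ℝ) ^ (-(1 : ℝ) / 16) := by gcongr
    refine (Finset.sum_le_sum hpiece).trans ?_
    rw [Finset.sum_const, card_range, nsmul_eq_mul]
    push_cast
    exact le_rfl
  -- second part
  have hsecond : |∑ e ∈ Icc 1 N, ∑ d ∈ Ioc (Dl (cl e)) (N / e), a d * b e * J d e|
      ≤ (N : ℝ) / M * (1 + Real.log N) + N / Z := by
    refine (Finset.abs_sum_le_sum_abs _ _).trans ?_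
    have h1 : ∀ e ∈ Icc 1 N, |∑ d ∈ Ioc (Dl (cl e)) (N / e), a d * b e * J d e|
        ≤ (N : ℝ) / M * (1 / e) + (if e ∈ Icc 1 (N / Z) then 1 else 0) := by
      intro e he
      rw [Finset.mem_Icc] at he
      have he1 : (1 : ℝ) ≤ e := by exact_mod_cast he.1
      have he0 : (0 : ℝ) < e := by linarith
      by_cases hez : e ∈ Icc 1 (N / Z)
      · rw [if_pos hez]
        have h2 : |∑ d ∈ Ioc (Dl (cl e)) (N / e), a d * b e * J d e|
            ≤ ((N / e : ℕ) : ℝ) - Dl (cl e) := by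
          refine (Finset.abs_sum_le_sum_abs _ _).trans ?_
          refine (Finset.sum_le_sum (fun d _ => (?_ : |a d * b e * J d e| ≤ 1))).trans ?_
          · rw [abs_mul, abs_mul]
            exact mul_le_one₀ (mul_le_one₀ (ha d) (abs_nonneg _) (hb e)) (abs_nonneg _) (J_abs d e)
          · rw [Finset.sum_const, Nat.card_Ioc, nsmul_eq_mul, mul_one]
            rw [Nat.cast_sub (hDle e he.1)]
        refine h2.trans ?_
        have h3 : ((N / e : ℕ) : ℝ) ≤ (N : ℝ) / e := Nat.cast_div_le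
        have h4 : (N : ℝ) / B (cl e) - 1 ≤ Dl (cl e) := (Nat.sub_one_lt_floor _).le
        have h5 : (N : ℝ) / e * (1 - 1 / M) ≤ (N : ℝ) / B (cl e) := by
          have h6 : 1 - 1 / (M : ℝ) ≤ Real.exp (-(1 / M)) := by
            have := Real.add_one_le_exp (-(1 / (M : ℝ)))
            linarith
          calc (N : ℝ) / e * (1 - 1 / M) ≤ (N : ℝ) / e * Real.exp (-(1 / M)) := by gcongr
            _ = (N : ℝ) / (e * Real.exp (1 / M)) := by
                rw [Real.exp_neg]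
                field_simp
            _ ≤ (N : ℝ) / B (cl e) := by
                have := hB0 (cl e)
                have := heB' e he.1
                gcongr
        have h7 : (N : ℝ) / e * (1 - 1 / M) = (N : ℝ) / e - (N : ℝ) / M * (1 / e) := by
          field_simp
        rw [h7] at h5
        linarith
      · rw [if_neg hez, add_zero]
        have h2 : ∑ d ∈ Ioc (Dl (cl e)) (N / e), a d * b e * J d e = 0 := by
          apply Finset.sum_eq_zero
          intro d hd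
          rw [Finset.mem_Ioc] at hd
          have had : a d = 0 := by
            by_contra hcon
            have hZd := (hsa d hcon).2.2
            apply hez
            rw [Finset.mem_Icc]
            refine ⟨he.1, ?_⟩
            rw [Nat.le_div_iff_mul_le (by omega)]
            have h3 : d * e ≤ N := (Nat.le_div_iff_mul_le (by omega)).1 hd.2
            calc e * Z ≤ e * d := Nat.mul_le_mul_left _ hZd
              _ = d * e := mul_comm _ _
              _ ≤ N := h3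
          rw [had]
          ring
        rw [h2, abs_zero]
        positivity
    refine (Finset.sum_le_sum h1).trans ?_
    rw [Finset.sum_add_distrib, ← Finset.mul_sum]
    have h2 : ∑ e ∈ Icc 1 N, (if e ∈ Icc 1 (N / Z) then (1 : ℝ) else 0) ≤ N / Z := by
      rw [← Finset.sum_filter, Finset.sum_const, nsmul_eq_mul, mul_one]
      have h3 : (Icc 1 N).filter (fun e => e ∈ Icc 1 (N / Z)) ⊆ Icc 1 (N / Z) := by
        intro x hx
        exact (Finset.mem_filter.1 hx).2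
      have h4 := Finset.card_le_card h3
      rw [Nat.card_Icc, Nat.add_sub_cancel] at h4
      have h5 : ((((Icc 1 N).filter (fun e => e ∈ Icc 1 (N / Z))).card : ℕ) : ℝ) ≤ ((N / Z : ℕ) : ℝ) := by
        exact_mod_cast h4
      exact h5.trans Nat.cast_div_le
    have h3 := harm_le N
    have h4 : (N : ℝ) / M * ∑ e ∈ Icc 1 N, 1 / (e : ℝ) ≤ (N : ℝ) / M * (1 + Real.log N) := by
      gcongr
    linarith
  have hLle : (L : ℝ) ≤ M * Real.log N := Nat.floor_le (by positivity)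
  have e32 : (Z : ℝ) ^ ((1 : ℝ) / 32) * (Z : ℝ) ^ (-(1 : ℝ) / 16) = (Z : ℝ) ^ (-(1 : ℝ) / 32) := by
    rw [← Real.rpow_add hZ0]
    norm_num
  have e16 : (Z : ℝ) ^ (-(1 : ℝ) / 16) ≤ (Z : ℝ) ^ (-(1 : ℝ) / 32) :=
    Real.rpow_le_rpow_of_exponent_le hZ1 (by norm_num)
  have eM : (N : ℝ) / M ≤ N * (Z : ℝ) ^ (-(1 : ℝ) / 32) := by
    rw [div_eq_mul_inv]
    gcongr
    have : (Z : ℝ) ^ (-(1 : ℝ) / 32) = ((Z : ℝ) ^ ((1 : ℝ) / 32))⁻¹ := by
      rw [← Real.rpow_neg hZ0.le]
      norm_num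
    rw [this]
    gcongr
  have eZ : (N : ℝ) / Z ≤ N * (Z : ℝ) ^ (-(1 : ℝ) / 32) := by
    rw [div_eq_mul_inv]
    gcongr
    rw [← Real.rpow_neg_one]
    exact Real.rpow_le_rpow_of_exponent_le hZ1 (by norm_num)
  have hz32 : 0 ≤ (Z : ℝ) ^ (-(1 : ℝ) / 32) := by positivity
  have hz16 : 0 ≤ (Z : ℝ) ^ (-(1 : ℝ) / 16) := by positivity
  have hC0 : (0 : ℝ) ≤ C := by linarith
  have f1 : ((L : ℝ) + 1) * (C * N * (Z : ℝ) ^ (-(1 : ℝ) / 16))
      ≤ 2 * C * N * (1 + Real.log N) * (Z : ℝ) ^ (-(1 : ℝ) / 32) := by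
    calc ((L : ℝ) + 1) * (C * N * (Z : ℝ) ^ (-(1 : ℝ) / 16))
        ≤ (2 * (Z : ℝ) ^ ((1 : ℝ) / 32) * Real.log N + 1) * (C * N * (Z : ℝ) ^ (-(1 : ℝ) / 16)) := by
          gcongr
          exact hLle.trans (by gcongr)
      _ = C * N * (2 * Real.log N * ((Z : ℝ) ^ ((1 : ℝ) / 32) * (Z : ℝ) ^ (-(1 : ℝ) / 16))
            + (Z : ℝ) ^ (-(1 : ℝ) / 16)) := by ring
      _ ≤ C * N * (2 * Real.log N * (Z : ℝ) ^ (-(1 : ℝ) / 32) + (Z : ℝ) ^ (-(1 : ℝ) / 32)) := by
          rw [e32]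
          gcongr
      _ ≤ C * N * (2 * Real.log N * (Z : ℝ) ^ (-(1 : ℝ) / 32) + 2 * (Z : ℝ) ^ (-(1 : ℝ) / 32)) := by
          gcongr
          linarith
      _ = _ := by ring
  have f2 : (N : ℝ) / M * (1 + Real.log N) + N / Z
      ≤ 2 * N * (1 + Real.log N) * (Z : ℝ) ^ (-(1 : ℝ) / 32) := by
    have g1 : (N : ℝ) / M * (1 + Real.log N) ≤ N * (Z : ℝ) ^ (-(1 : ℝ) / 32) * (1 + Real.log N) := by
      gcongr
    have g2 : N * (Z : ℝ) ^ (-(1 : ℝ) / 32) ≤ N * (Z : ℝ) ^ (-(1 : ℝ) / 32) * (1 + Real.log N) := by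
      have : 0 ≤ N * (Z : ℝ) ^ (-(1 : ℝ) / 32) := by positivity
      nlinarith
    linarith
  refine (abs_add_le _ _).trans ?_
  calc _ ≤ ((L : ℝ) + 1) * (C * N * (Z : ℝ) ^ (-(1 : ℝ) / 16)) +
        ((N : ℝ) / M * (1 + Real.log N) + N / Z) := add_le_add hfirst hsecond
    _ ≤ 2 * C * N * (1 + Real.log N) * (Z : ℝ) ^ (-(1 : ℝ) / 32)
        + 2 * N * (1 + Real.log N) * (Z : ℝ) ^ (-(1 : ℝ) / 32) := add_le_add f1 f2
    _ = (2 * C + 2) * N * (1 + Real.log N) * (Z : ℝ) ^ (-(1 : ℝ) / 32) := by ring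

end Vale.Agent.P014.H580
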