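import Mathlib
import Vale.Agent.P014.H580.J3

/-!
Shared definitions for the first moment of the kernel of the Monsky type matrix of the twists
of the conductor 17 curve.
-/

namespace Vale.Agent.P014.FM

open Finset

export Vale.Agent.P014.H580 (J)

/-- index `u = ((x1, x2), (y1, y2))` -/
abbrev Idx := (ZMod 2 × ZMod 2) × (ZMod 2 × ZMod 2)

/-- exponent of the symbol `(D_u | D_v)` -/
def Phi (u v : Idx) : ZMod 2 := u.1.1 * (u.2.2 + v.2.2) + u.2.1 * (u.1.2 + v.1.2)

/-- exponent of the symbol modulo 17 -/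
def e17 (u : Idx) : ZMod 2 := u.1.1 * u.2.1

/-- exponent of the symbol modulo 4 -/
def e4 (u : Idx) : ZMod 2 := u.1.2 * u.2.2

/-- the character modulo 4 -/
noncomputable def chi4 (d : ℕ) : ℝ := if d % 4 = 1 then 1 else if d % 4 = 3 then -1 else 0

/-- the sign attached to a tuple -/
noncomputable def wt (D : Idx → ℕ) : ℝ :=
  (∏ u, (if e17 u = 1 then J (D u) 17 else 1) * (if e4 u = 1 then chi4 (D u) else 1)) *
    ∏ u, ∏ v, (if Phi u v = 1 then J (D u) (D v) else 1)

/-- the factorisations of `n` indexed by `Idx` -/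
noncomputable def tuples (n : ℕ) : Finset (Idx → ℕ) :=
  (Fintype.piFinset fun _ => n.divisors).filter fun D => ∏ u, D u = n

/-- the number of kernel vectors as a sum over factorisations -/
noncomputable def kerAv (n : ℕ) : ℝ :=
  (1 / 4) ^ n.primeFactors.card * ∑ D ∈ tuples n, wt D

/-- the family -/
def IsDm (n : ℕ) : Prop := Squarefree n ∧ n % 4 = 3 ∧ jacobiSym (n : ℤ) 17 = -1

open Classical in
/-- the family up to `X` -/
noncomputable def Dm (X : ℕ) : Finset ℕ := (range (X + 1)).filter IsDm

/-- the maximal unlinked sets -/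
def Us : Finset (Finset Idx) :=
  (univ.powersetCard 4).filter fun U => ∀ u ∈ U, ∀ v ∈ U, Phi u v = Phi v u

open Classical in
/-- the part of `kerAv` supported on `U` -/
noncomputable def mainU (U : Finset Idx) (n : ℕ) : ℝ :=
  (1 / 4) ^ n.primeFactors.card *
    ∑ D ∈ (tuples n).filter (fun D => ∀ u, u ∉ U → D u = 1), wt D

end Vale.Agent.P014.FM
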