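import Vale.Agent.P014.H580.K12
import Vale.Agent.P014.H687.Dp
import Vale.Agent.P014.H687.FM3sw

/-!
The first moment of the number of kernel vectors: the unconditional statements.
-/

namespace Vale.Agent.P014.FM

open Finset Vale.Agent.P014.H687.FM Vale.Agent.P014.H687.FMG

/-- first moment over a class -/
theorem fmmain (k : ZMod 2 × ZMod 2) (ε : ℝ) (hε : 0 < ε) : ∃ X₀ : ℕ, ∀ X : ℕ, X₀ ≤ X →
    ∑ n ∈ Fam k X, kerAv n ≤ 3 * ((Fam k X).card : ℝ) + ε * X := by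
  obtain ⟨X₁, h1⟩ := fm4g sw k (ε / 2) (by positivity)
  obtain ⟨X₂, h2⟩ := H687.FMG.fm5 sw k (ε / 2) (by positivity)
  refine ⟨max X₁ X₂, fun X hX => ?_⟩
  have a1 := (abs_le.1 (h1 X ((le_max_left _ _).trans hX))).2
  have a2 := (abs_le.1 (h2 X ((le_max_right _ _).trans hX))).2
  rw [Finset.sum_sub_distrib] at a1
  linarith

/-- the lower bound for the proportion, negative twists -/
theorem prop_dm : ∀ ε : ℝ, 0 < ε → ∃ X0 : ℕ, ∀ X : ℕ, X0 ≤ X →
    (1 / 3 - ε) * ((Dm X).card : ℝ) ≤ (((Dm X).filter fun n => (NP n).det = 1).card : ℝ) := by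
  apply H698.proportion
  intro ε hε
  obtain ⟨X₀, h⟩ := fmmain (1, 1) ε hε
  refine ⟨X₀, fun X hX => ?_⟩
  have := h X hX
  rwa [Fam_Dm] at this

/-- the lower bound for the proportion, positive twists -/
theorem prop_dp : ∀ ε : ℝ, 0 < ε → ∃ X0 : ℕ, ∀ X : ℕ, X0 ≤ X →
    (1 / 3 - ε) * ((H687.DP.Dp X).card : ℝ)
      ≤ (((H687.DP.Dp X).filter fun n => (NP n).det = 1).card : ℝ) := by
  apply H687.DP.proportion_dp
  intro ε hε
  obtain ⟨X₀, h⟩ := fmmain (0, 0) ε hε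
  refine ⟨X₀, fun X hX => ?_⟩
  have := h X hX
  rwa [H687.DP.Fam_Dp] at this

end Vale.Agent.P014.FM
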