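import Mathlib
import Vale.Agent.P014.H580.FMDefs

/-!
The sum over all tuples, and fibering over one or two coordinates.
-/

namespace Vale.Agent.P014.FM

open Finset Function

section general

variable {ι : Type*} [Fintype ι] [DecidableEq ι]

/-- all tuples of positive integers with product at most `X` -/
noncomputable def TX (ι : Type*) [Fintype ι] [DecidableEq ι] (X : ℕ) : Finset (ι → ℕ) :=
  (Fintype.piFinset fun _ => Icc 1 X).filter fun D => ∏ u, D u ≤ X

omit [DecidableEq ι] in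
lemma one_le_prod {D : ι → ℕ} (h : ∀ u, 1 ≤ D u) : 1 ≤ ∏ u, D u :=
  Finset.one_le_prod'' h

lemma mem_TX {X : ℕ} {D : ι → ℕ} : D ∈ TX ι X ↔ (∀ u, 1 ≤ D u) ∧ ∏ u, D u ≤ X := by
  unfold TX
  rw [Finset.mem_filter, Fintype.mem_piFinset]
  constructor
  · rintro ⟨h1, h2⟩
    exact ⟨fun u => (Finset.mem_Icc.1 (h1 u)).1, h2⟩
  · rintro ⟨h1, h2⟩
    refine ⟨fun u => Finset.mem_Icc.2 ⟨h1 u, ?_⟩, h2⟩
    refine le_trans ?_ h2
    exact Nat.le_of_dvd (one_le_prod h1) (Finset.dvd_prod_of_mem _ (Finset.mem_univ u))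

lemma prod_upd (D : ι → ℕ) (v : ι) (x : ℕ) (hv : D v = 1) :
    ∏ u, update D v x u = x * ∏ u, D u := by
  rw [Finset.prod_update_of_mem (Finset.mem_univ v)]
  congr 1
  rw [← Finset.prod_sdiff (Finset.subset_univ {v})]
  rw [Finset.prod_singleton, hv, mul_one]

/-- fibering over one coordinate -/
lemma sum_fibT (X : ℕ) (v : ι) (F : (ι → ℕ) → ℝ) :
    ∑ D ∈ TX ι X, F D
      = ∑ D ∈ (TX ι X).filter (fun D => D v = 1),
          ∑ x ∈ Icc 1 (X / ∏ u, D u), F (update D v x) := by
  rw [Finset.sum_sigma']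
  refine Finset.sum_bij' (fun D _ => ⟨update D v 1, D v⟩) (fun q _ => update q.1 v q.2)
    ?_ ?_ ?_ ?_ ?_
  · intro D hD
    rw [mem_TX] at hD
    have h1 : ∏ u, D u = D v * ∏ u, update D v 1 u := by
      have h2 := prod_upd (update D v 1) v (D v) (by simp)
      rw [update_idem, update_eq_self] at h2
      exact h2
    have hpos : ∀ u, 1 ≤ update D v 1 u := by
      intro u
      by_cases huv : u = v
      · subst huv; simp
      · rw [update_of_ne huv]; exact hD.1 u
    have hp := one_le_prod hpos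
    have hDv := hD.1 v
    rw [Finset.mem_sigma, Finset.mem_filter, mem_TX, Finset.mem_Icc]
    refine ⟨⟨⟨hpos, ?_⟩, by simp⟩, hDv, ?_⟩
    · calc ∏ u, update D v 1 u = 1 * ∏ u, update D v 1 u := (one_mul _).symm
        _ ≤ D v * ∏ u, update D v 1 u := Nat.mul_le_mul_right _ hDv
        _ ≤ X := by rw [← h1]; exact hD.2
    · exact (Nat.le_div_iff_mul_le hp).2 (by rw [← h1]; exact hD.2)
  · rintro ⟨D, x⟩ hq
    rw [Finset.mem_sigma, Finset.mem_filter, mem_TX, Finset.mem_Icc] at hq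
    simp only at hq
    obtain ⟨⟨⟨h1, h2⟩, h3⟩, h4, h5⟩ := hq
    have hp := one_le_prod h1
    rw [mem_TX]
    refine ⟨?_, ?_⟩
    · intro u
      by_cases huv : u = v
      · subst huv; simpa using h4
      · simp only [update_of_ne huv]; exact h1 u
    · simp only
      rw [prod_upd D v x h3]
      exact (Nat.le_div_iff_mul_le hp).1 h5
  · intro D _
    simp
  · rintro ⟨D, x⟩ hq
    rw [Finset.mem_sigma, Finset.mem_filter] at hq
    simp only at hq
    have h3 := hq.1.2
    simp only [update_idem, update_self, Sigma.mk.injEq, heq_eq_eq, and_true]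
    rw [← h3, update_eq_self]
  · intro D _
    simp

/-- fibering over two coordinates -/
lemma sum_fib2T (X : ℕ) (u v : ι) (huv : u ≠ v) (F : (ι → ℕ) → ℝ) :
    ∑ D ∈ TX ι X, F D
      = ∑ D ∈ (TX ι X).filter (fun D => D u = 1 ∧ D v = 1),
        ∑ y ∈ Icc 1 (X / ∏ w, D w), ∑ x ∈ Icc 1 (X / (∏ w, D w) / y),
          F (update (update D v y) u x) := by
  rw [sum_fibT X u F, Finset.sum_filter, sum_fibT X v, Finset.sum_filter, Finset.sum_filter]
  apply Finset.sum_congr rfl
  intro D hD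
  by_cases h1 : D v = 1
  · by_cases h2 : D u = 1
    · rw [if_pos h1, if_pos ⟨h2, h1⟩]
      apply Finset.sum_congr rfl
      intro y _
      rw [update_of_ne huv, if_pos h2, prod_upd D v y h1]
      rw [Nat.div_div_eq_div_mul, mul_comm]
    · rw [if_pos h1, if_neg (by tauto)]
      apply Finset.sum_eq_zero
      intro y _
      rw [update_of_ne huv, if_neg h2]
  · rw [if_neg h1, if_neg (by tauto)]

/-- the sum of reciprocals of products -/
lemma sum_recipT (X : ℕ) : ∑ D ∈ TX ι X, (1 : ℝ) / ((∏ u, D u : ℕ) : ℝ)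
    ≤ (1 + Real.log X) ^ (Fintype.card ι) := by
  have h1 : ∑ D ∈ TX ι X, (1 : ℝ) / ((∏ u, D u : ℕ) : ℝ)
      ≤ ∑ D ∈ Fintype.piFinset (fun _ : ι => Icc 1 X), ∏ u, (1 : ℝ) / (D u : ℝ) := by
    calc ∑ D ∈ TX ι X, (1 : ℝ) / ((∏ u, D u : ℕ) : ℝ) = ∑ D ∈ TX ι X, ∏ u, (1 : ℝ) / (D u : ℝ) := by
          apply Finset.sum_congr rfl
          intro D _
          rw [Finset.prod_div_distrib, Finset.prod_const_one]
          push_cast
          rfl
      _ ≤ _ := by
          apply Finset.sum_le_sum_of_subset_of_nonneg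
          · exact Finset.filter_subset _ _
          · intro D _ _
            positivity
  refine h1.trans ?_
  rw [← Finset.prod_univ_sum (fun _ : ι => Icc 1 X) (fun _ j => (1 : ℝ) / (j : ℝ))]
  rw [Finset.prod_const, Finset.card_univ]
  have h2 := Vale.Agent.P014.H580.harm_le X
  have h3 : 0 ≤ ∑ e ∈ Icc 1 X, (1 : ℝ) / e := Finset.sum_nonneg (fun _ _ => by positivity)
  exact pow_le_pow_left₀ h3 h2 _

end general

lemma card_Idx : Fintype.card Idx = 16 := by decide

end Vale.Agent.P014.FM
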