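import Mathlib
import Vale.Agent.P014.H580.K0

/-!
Bilinear structure of the summand in two linked coordinates.
-/

namespace Vale.Agent.P014.FM

open Finset Function Vale.Agent.P014.H580

/-! ### the character modulo 4 and Jacobi symbols -/

lemma chi4_eq (d : ℕ) : chi4 d = ((ZMod.χ₄ (d : ZMod 4) : ℤ) : ℝ) := by
  rw [ZMod.χ₄_nat_eq_if_mod_four]
  unfold chi4
  have h : d % 4 = 0 ∨ d % 4 = 1 ∨ d % 4 = 2 ∨ d % 4 = 3 := by omega
  rcases h with h | h | h | h <;> simp [h] <;> omega

lemma chi4_mul (a b : ℕ) : chi4 (a * b) = chi4 a * chi4 b := by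
  rw [chi4_eq, chi4_eq, chi4_eq, Nat.cast_mul, map_mul, Int.cast_mul]

lemma chi4_abs (d : ℕ) : |chi4 d| ≤ 1 := by
  unfold chi4
  split_ifs <;> simp

lemma chi4_even {d : ℕ} (h : ¬ Odd d) : chi4 d = 0 := by
  unfold chi4
  rw [Nat.not_odd_iff_even, Nat.even_iff] at h
  rw [if_neg (by omega), if_neg (by omega)]

lemma J_eq_zero {d e : ℕ} (he : e ≠ 0) (h : ¬ Nat.Coprime d e) : J d e = 0 := by
  unfold J
  have : NeZero e := ⟨he⟩
  rw [(jacobiSym.eq_zero_iff_not_coprime).2 (by rwa [Int.gcd_natCast_natCast])]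
  simp

section general

variable {ι : Type*} [Fintype ι] [DecidableEq ι]

/-- the general sign attached to a tuple -/
noncomputable def wtG (a17 a4 : ι → ZMod 2) (P : ι → ι → ZMod 2) (D : ι → ℕ) : ℝ :=
  (∏ u, (if a17 u = 1 then J (D u) 17 else 1) * (if a4 u = 1 then chi4 (D u) else 1)) *
    ∏ u, ∏ v, (if P u v = 1 then J (D u) (D v) else 1)

open Classical in
/-- the part depending on the product only -/
noncomputable def pw (i j n : ℕ) : ℝ :=
  (if Squarefree n then (1 / 4) ^ n.primeFactors.card else 0) * chi4 n ^ i * J n 17 ^ j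

/-- the full summand -/
noncomputable def gG (a17 a4 : ι → ZMod 2) (P : ι → ι → ZMod 2) (i j : ℕ) (D : ι → ℕ) : ℝ :=
  pw i j (∏ u, D u) * wtG a17 a4 P D

lemma pw_abs (i j n : ℕ) : |pw i j n| ≤ 1 := by
  unfold pw
  rw [abs_mul, abs_mul, abs_pow, abs_pow]
  have h1 : |chi4 n| ^ i ≤ 1 := pow_le_one₀ (abs_nonneg _) (chi4_abs n)
  have h2 : |J n 17| ^ j ≤ 1 := pow_le_one₀ (abs_nonneg _) (J_abs n 17)
  have h3 : |(if Squarefree n then ((1 : ℝ) / 4) ^ n.primeFactors.card else 0)| ≤ 1 := by
    split_ifs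
    · rw [abs_pow]
      exact pow_le_one₀ (abs_nonneg _) (by rw [abs_le]; constructor <;> norm_num)
    · simp
  exact mul_le_one₀ (mul_le_one₀ h3 (by positivity) h1) (by positivity) h2

lemma pw_mul {i j m n : ℕ} (h : Nat.Coprime m n) : pw i j (m * n) = pw i j m * pw i j n := by
  unfold pw
  rw [chi4_mul, J_mul_left, mul_pow, mul_pow]
  by_cases h1 : Squarefree m
  · by_cases h2 : Squarefree n
    · rw [if_pos h1, if_pos h2, if_pos ((Nat.squarefree_mul h).2 ⟨h1, h2⟩)]
      rw [Nat.Coprime.primeFactors_mul h,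
        Finset.card_union_of_disjoint (Nat.Coprime.disjoint_primeFactors h), pow_add]
      ring
    · rw [if_neg h2, if_neg (fun h3 => h2 ((Nat.squarefree_mul h).1 h3).2)]
      ring
  · rw [if_neg h1, if_neg (fun h3 => h1 ((Nat.squarefree_mul h).1 h3).1)]
    ring

lemma pw_not_sq {i j n : ℕ} (h : ¬ Squarefree n) : pw i j n = 0 := by
  unfold pw
  rw [if_neg h]
  ring

lemma pw_even {i j n : ℕ} (hi : i ≠ 0) (h : ¬ Odd n) : pw i j n = 0 := by
  unfold pw
  rw [chi4_even h, zero_pow hi]
  ring

/-- functions of two variables which are products of bounded functions of one variable -/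
def Sp (F : ℕ → ℕ → ℝ) : Prop :=
  ∃ A B : ℕ → ℝ, (∀ x, |A x| ≤ 1) ∧ (∀ y, |B y| ≤ 1) ∧ ∀ x y, F x y = A x * B y

lemma Sp.mul {F G : ℕ → ℕ → ℝ} (hF : Sp F) (hG : Sp G) : Sp (fun x y => F x y * G x y) := by
  obtain ⟨A, B, hA, hB, h⟩ := hF
  obtain ⟨A', B', hA', hB', h'⟩ := hG
  refine ⟨fun x => A x * A' x, fun y => B y * B' y, ?_, ?_, ?_⟩
  · intro x
    rw [abs_mul]
    exact mul_le_one₀ (hA x) (abs_nonneg _) (hA' x)
  · intro y
    rw [abs_mul]
    exact mul_le_one₀ (hB y) (abs_nonneg _) (hB' y)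
  · intro x y
    dsimp only
    rw [h, h']
    ring

lemma Sp.one : Sp (fun _ _ => (1 : ℝ)) :=
  ⟨fun _ => 1, fun _ => 1, by simp, by simp, by simp⟩

lemma Sp.const {c : ℝ} (hc : |c| ≤ 1) : Sp (fun _ _ => c) :=
  ⟨fun _ => c, fun _ => 1, by simpa using hc, by simp, by simp⟩

lemma Sp.left {f : ℕ → ℝ} (hf : ∀ x, |f x| ≤ 1) : Sp (fun x _ => f x) :=
  ⟨f, fun _ => 1, hf, by simp, by simp⟩

lemma Sp.right {f : ℕ → ℝ} (hf : ∀ x, |f x| ≤ 1) : Sp (fun _ y => f y) :=
  ⟨fun _ => 1, f, by simp, hf, by simp⟩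

lemma Sp.prod {κ : Type*} (s : Finset κ) (F : κ → ℕ → ℕ → ℝ) (h : ∀ k ∈ s, Sp (F k)) :
    Sp (fun x y => ∏ k ∈ s, F k x y) := by
  classical
  induction s using Finset.induction_on with
  | empty => simpa using Sp.one
  | insert a s ha ih =>
    have h1 := Sp.mul (h a (Finset.mem_insert_self _ _))
      (ih (fun k hk => h k (Finset.mem_insert_of_mem hk)))
    simpa [Finset.prod_insert ha] using h1

/-- a weight which is of product type in the coordinates `u`, `v` -/
def SepH (u v : ι) (H : (ι → ℕ) → ℝ) : Prop :=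
  ∀ D : ι → ℕ, Sp (fun x y => H (update (update D v y) u x))

omit [Fintype ι] in
lemma SepH.mul {u v : ι} {H K : (ι → ℕ) → ℝ} (h1 : SepH u v H) (h2 : SepH u v K) :
    SepH u v (fun D => H D * K D) := fun D => Sp.mul (h1 D) (h2 D)

omit [Fintype ι] in
lemma SepH.prod {u v : ι} {κ : Type*} (s : Finset κ) (H : κ → (ι → ℕ) → ℝ)
    (h : ∀ k ∈ s, SepH u v (H k)) : SepH u v (fun D => ∏ k ∈ s, H k D) :=
  fun D => Sp.prod s (fun k x y => H k (update (update D v y) u x)) (fun k hk => h k hk D)

omit [Fintype ι] in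
/-- functions which do not depend on the coordinate `u` -/
lemma SepH.of_left {u v : ι} {H : (ι → ℕ) → ℝ} (hb : ∀ D, |H D| ≤ 1)
    (h : ∀ D x, H (update D u x) = H D) : SepH u v H := by
  intro D
  simp only [h]
  exact Sp.right (fun y => hb _)

omit [Fintype ι] in
/-- functions which do not depend on the coordinate `v` -/
lemma SepH.of_right {u v : ι} (huv : u ≠ v) {H : (ι → ℕ) → ℝ} (hb : ∀ D, |H D| ≤ 1)
    (h : ∀ D x, H (update D v x) = H D) : SepH u v H := by
  intro D
  have h1 : ∀ x y, H (update (update D v y) u x) = H (update D u x) := by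
    intro x y
    rw [update_comm huv.symm, h]
  simp only [h1]
  exact Sp.left (fun x => hb _)

/-- the sign is, up to the linked symbol, of product type -/
lemma wtG_sep (a17 a4 : ι → ZMod 2) (P : ι → ι → ZMod 2) (u v : ι)
    (huv : u ≠ v) (h1 : P u v = 1) (h2 : P v u ≠ 1) (D : ι → ℕ) :
    ∃ A B : ℕ → ℝ, (∀ x, |A x| ≤ 1) ∧ (∀ y, |B y| ≤ 1) ∧
      ∀ x y, wtG a17 a4 P (update (update D v y) u x) = A x * B y * J x y := by
  set K : (ι → ℕ) → ℝ := fun D =>
    (∏ w, (if a17 w = 1 then J (D w) 17 else 1) * (if a4 w = 1 then chi4 (D w) else 1)) *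
      ∏ q ∈ (univ ×ˢ univ).erase (u, v), (if P q.1 q.2 = 1 then J (D q.1) (D q.2) else 1) with hK
  have h3 : ∀ D, wtG a17 a4 P D = K D * J (D u) (D v) := by
    intro D
    unfold wtG
    rw [hK]
    simp only
    rw [mul_assoc]
    congr 1
    have hmem : (u, v) ∈ (univ : Finset ι) ×ˢ (univ : Finset ι) :=
      Finset.mem_product.2 ⟨Finset.mem_univ u, Finset.mem_univ v⟩
    rw [← Finset.prod_product', ← Finset.mul_prod_erase (univ ×ˢ univ) _ hmem, mul_comm]
    simp only
    rw [if_pos h1]
  have hJif : ∀ (c : Prop) [Decidable c] (a b : ℕ), |(if c then J a b else 1)| ≤ 1 := by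
    intro c _ a b
    split_ifs
    · exact J_abs _ _
    · simp
  have hKS : SepH u v K := by
    apply SepH.mul
    · apply SepH.prod
      intro w _
      have hb : ∀ D : ι → ℕ,
          |(if a17 w = 1 then J (D w) 17 else 1) * (if a4 w = 1 then chi4 (D w) else 1)| ≤ 1 := by
        intro D
        rw [abs_mul]
        refine mul_le_one₀ (hJif _ _ _) (abs_nonneg _) ?_
        split_ifs
        · exact chi4_abs _
        · simp
      by_cases hw : w = u
      · refine SepH.of_right huv hb ?_
        intro D x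
        subst hw
        simp only [update_of_ne huv]
      · refine SepH.of_left hb ?_
        intro D x
        simp only [update_of_ne hw]
    · apply SepH.prod
      rintro ⟨s, t⟩ hst
      rw [Finset.mem_erase] at hst
      have hne := hst.1
      have hb : ∀ D : ι → ℕ, |(if P s t = 1 then J (D s) (D t) else 1)| ≤ 1 :=
        fun D => hJif _ _ _
      have hcon : ∀ H : P s t ≠ 1, SepH u v (fun D => (if P s t = 1 then J (D s) (D t) else 1)) := by
        intro H
        refine SepH.of_left hb ?_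
        intro D x
        simp only [if_neg H]
      by_cases hs : s = u
      · by_cases ht : t = v
        · exact absurd (by rw [hs, ht]) hne
        · -- does not depend on v
          refine SepH.of_right huv hb ?_
          intro D x
          subst hs
          simp only [update_of_ne huv, update_of_ne ht]
      · by_cases ht : t = u
        · by_cases hsv : s = v
          · apply hcon
            rw [hsv, ht]
            exact h2
          · refine SepH.of_right huv hb ?_
            intro D x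
            subst ht
            simp only [update_of_ne huv, update_of_ne hsv]
        · refine SepH.of_left hb ?_
          intro D x
          simp only [update_of_ne hs, update_of_ne ht]
  obtain ⟨A, B, hA, hB, h⟩ := hKS D
  refine ⟨A, B, hA, hB, ?_⟩
  intro x y
  have h4 := h x y
  dsimp only at h4
  rw [h3, update_self, update_of_ne huv.symm, update_self, h4]

/-- the summand in two linked coordinates -/
lemma gG_sep (a17 a4 : ι → ZMod 2) (P : ι → ι → ZMod 2) (i j : ℕ)
    (hi : i ≠ 0) (u v : ι) (huv : u ≠ v) (h1 : P u v = 1) (h2 : P v u ≠ 1) (D : ι → ℕ)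
    (hDu : D u = 1) (hDv : D v = 1) :
    ∃ A B : ℕ → ℝ, (∀ x, |A x| ≤ 1) ∧ (∀ y, |B y| ≤ 1) ∧ (∀ x, A x ≠ 0 → Odd x ∧ Squarefree x) ∧
      (∀ y, B y ≠ 0 → Odd y ∧ Squarefree y) ∧
      ∀ x y, 1 ≤ y → gG a17 a4 P i j (update (update D v y) u x) = A x * B y * J x y := by
  obtain ⟨A, B, hA, hB, h⟩ := wtG_sep a17 a4 P u v huv h1 h2 D
  set r := ∏ w, D w with hr
  classical
  refine ⟨fun x => (if Nat.Coprime x r then pw i j x else 0) * A x,
    fun y => (if Nat.Coprime y r then pw i j y * pw i j r else 0) * B y, ?_, ?_, ?_, ?_, ?_⟩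
  · intro x
    rw [abs_mul]
    refine mul_le_one₀ ?_ (abs_nonneg _) (hA x)
    split_ifs
    · exact pw_abs _ _ _
    · simp
  · intro y
    rw [abs_mul]
    refine mul_le_one₀ ?_ (abs_nonneg _) (hB y)
    split_ifs
    · rw [abs_mul]
      exact mul_le_one₀ (pw_abs _ _ _) (abs_nonneg _) (pw_abs _ _ _)
    · simp
  · intro x hx
    have h3 : pw i j x ≠ 0 := by
      intro h4
      apply hx
      dsimp only
      rw [h4]
      simp
    constructor
    · by_contra h4
      exact h3 (pw_even hi h4)
    · by_contra h4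
      exact h3 (pw_not_sq h4)
  · intro y hy
    have h3 : pw i j y ≠ 0 := by
      intro h4
      apply hy
      dsimp only
      rw [h4]
      simp
    constructor
    · by_contra h4
      exact h3 (pw_even hi h4)
    · by_contra h4
      exact h3 (pw_not_sq h4)
  · intro x y hy
    unfold gG
    rw [h x y]
    have hprod : ∏ w, update (update D v y) u x w = x * (y * r) := by
      rw [prod_upd _ u x (by rw [update_of_ne huv]; exact hDu), prod_upd _ v y hDv]
    rw [hprod]
    dsimp only
    by_cases hxy : Nat.Coprime x y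
    · by_cases hxr : Nat.Coprime x r
      · by_cases hyr : Nat.Coprime y r
        · rw [if_pos hxr, if_pos hyr, pw_mul (Nat.Coprime.mul_right hxy hxr), pw_mul hyr]
          ring
        · rw [if_neg hyr, pw_not_sq]
          · ring
          · intro h3
            apply hyr
            have h4 := Squarefree.squarefree_of_dvd (Dvd.intro_left x rfl) h3
            exact Nat.coprime_of_squarefree_mul h4
      · rw [if_neg hxr, pw_not_sq]
        · ring
        · intro h3
          apply hxr
          have h4 : Squarefree (x * r) := Squarefree.squarefree_of_dvd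
            ⟨y, by ring⟩ h3
          exact Nat.coprime_of_squarefree_mul h4
    · rw [J_eq_zero (by omega) hxy]
      ring

end general

end Vale.Agent.P014.FM
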