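import Mathlib
import Vale.Agent.P014.H580.K1

/-!
Tuples with a linked pair of large coordinates are negligible.
-/

namespace Vale.Agent.P014.FM

open Finset Function Vale.Agent.P014.H580

section general

variable {ι : Type*} [Fintype ι] [DecidableEq ι]

/-- indicator of both coordinates being large -/
noncomputable def bd (Z : ℕ) (s t : ι) (D : ι → ℕ) : ℝ := if Z ≤ D s ∧ Z ≤ D t then 1 else 0

/-- indicator of no pair of `Q` being large -/
noncomputable def NQ (Z : ℕ) (Q : Finset (ι × ι)) (D : ι → ℕ) : ℝ :=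
  ∏ q ∈ Q, (1 - bd Z q.1 q.2 D)

omit [Fintype ι] [DecidableEq ι] in
lemma bd_cases (Z : ℕ) (s t : ι) (D : ι → ℕ) : bd Z s t D = 0 ∨ bd Z s t D = 1 := by
  unfold bd
  split_ifs <;> simp

omit [Fintype ι] [DecidableEq ι] in
lemma nbd_abs (Z : ℕ) (s t : ι) (D : ι → ℕ) : |1 - bd Z s t D| ≤ 1 := by
  rcases bd_cases Z s t D with h | h <;> rw [h] <;> simp

omit [Fintype ι] in
/-- the oriented linked pairs -/
lemma NQ_sep (P : ι → ι → ZMod 2) (Z : ℕ) (Q : Finset (ι × ι)) (u v : ι) (huv : u ≠ v)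
    (hQ : ∀ q ∈ Q, P q.1 q.2 = 1 ∧ P q.2 q.1 ≠ 1) (h1 : P u v = 1) (hnot : (u, v) ∉ Q) :
    SepH u v (NQ Z Q) := by
  apply SepH.prod
  rintro ⟨s, t⟩ hst
  have h2 := hQ _ hst
  simp only at h2
  have hst' : s ≠ t := by
    rintro rfl
    exact h2.2 h2.1
  by_cases hs : s = u
  · -- then t is different from v and from u
    have htv : t ≠ v := by
      rintro rfl
      exact hnot (by rw [← hs]; exact hst)
    refine SepH.of_right huv (fun D => nbd_abs Z s t D) ?_
    intro D x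
    unfold bd
    subst hs
    rw [update_of_ne huv, update_of_ne htv]
  · by_cases ht : t = u
    · have hsv : s ≠ v := by
        rintro rfl
        subst ht
        exact h2.2 h1
      refine SepH.of_right huv (fun D => nbd_abs Z s t D) ?_
      intro D x
      unfold bd
      subst ht
      rw [update_of_ne hsv, update_of_ne huv]
    · refine SepH.of_left (fun D => nbd_abs Z s t D) ?_
      intro D x
      unfold bd
      rw [update_of_ne hs, update_of_ne ht]

/-- the contribution of one linked pair of large coordinates -/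
theorem S1_one : ∃ C : ℝ, 1 ≤ C ∧ ∀ (a17 a4 : ι → ZMod 2) (P : ι → ι → ZMod 2) (i j : ℕ) (u v : ι)
    (X Z : ℕ) (H : (ι → ℕ) → ℝ), i ≠ 0 → u ≠ v → P u v = 1 → P v u ≠ 1 → SepH u v H →
    1 ≤ X → 1 ≤ Z →
    |∑ D ∈ TX ι X, gG a17 a4 P i j D * (H D * bd Z u v D)|
      ≤ C * X * (1 + Real.log X) ^ (Fintype.card ι + 1) * (Z : ℝ) ^ (-(1 : ℝ) / 32) := by
  obtain ⟨C, hC, hbil⟩ := bilin
  refine ⟨C, hC, ?_⟩
  intro a17 a4 P i j u v X Z H hi huv h1 h2 hH hX hZ
  have hX1 : (1 : ℝ) ≤ X := by exact_mod_cast hX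
  have hlogX : 0 ≤ Real.log X := Real.log_nonneg hX1
  have hZ0 : (0 : ℝ) < Z := by exact_mod_cast hZ
  have hC0 : (0 : ℝ) ≤ C := by linarith
  rw [sum_fib2T X u v huv]
  refine (Finset.abs_sum_le_sum_abs _ _).trans ?_
  have hone : ∀ D ∈ (TX ι X).filter (fun D => D u = 1 ∧ D v = 1),
      |∑ y ∈ Icc 1 (X / ∏ w, D w), ∑ x ∈ Icc 1 (X / (∏ w, D w) / y),
        gG a17 a4 P i j (update (update D v y) u x) *
          (H (update (update D v y) u x) * bd Z u v (update (update D v y) u x))|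
      ≤ C * X * (1 + Real.log X) * (Z : ℝ) ^ (-(1 : ℝ) / 32) * (1 / ((∏ w, D w : ℕ) : ℝ)) := by
    intro D hD
    rw [Finset.mem_filter, mem_TX] at hD
    obtain ⟨⟨hD1, hD2⟩, hDu, hDv⟩ := hD
    have hp := one_le_prod hD1
    have hp0 : (0 : ℝ) < ((∏ w, D w : ℕ) : ℝ) := by exact_mod_cast hp
    obtain ⟨A, B, hA, hB, hA2, hB2, h⟩ := gG_sep a17 a4 P i j hi u v huv h1 h2 D hDu hDv
    obtain ⟨A', B', hA', hB', h'⟩ := hH D
    dsimp only at h'
    set N := X / ∏ w, D w with hN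
    have hN1 : 1 ≤ N := by
      rw [hN, Nat.one_le_div_iff (by omega)]
      exact hD2
    set a : ℕ → ℝ := fun x => if Z ≤ x then A x * A' x else 0 with ha
    set b : ℕ → ℝ := fun y => if Z ≤ y then B y * B' y else 0 with hb
    have hterm : ∑ y ∈ Icc 1 N, ∑ x ∈ Icc 1 (N / y),
        gG a17 a4 P i j (update (update D v y) u x) *
          (H (update (update D v y) u x) * bd Z u v (update (update D v y) u x))
        = ∑ y ∈ Icc 1 N, ∑ x ∈ Icc 1 (N / y), a x * b y * J x y := by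
      apply Finset.sum_congr rfl
      intro y hy
      apply Finset.sum_congr rfl
      intro x _
      rw [Finset.mem_Icc] at hy
      rw [h x y hy.1, h' x y]
      unfold bd
      rw [update_self, update_of_ne huv.symm, update_self, ha, hb]
      dsimp only
      by_cases hx : Z ≤ x
      · by_cases hy' : Z ≤ y
        · rw [if_pos ⟨hx, hy'⟩, if_pos hx, if_pos hy']
          ring
        · rw [if_neg (fun hc => hy' hc.2), if_neg hy']
          ring
      · rw [if_neg (fun hc => hx hc.1), if_neg hx]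
        ring
    rw [hterm]
    have ha1 : ∀ x, |a x| ≤ 1 := by
      intro x
      rw [ha]
      dsimp only
      split_ifs
      · rw [abs_mul]
        exact mul_le_one₀ (hA x) (abs_nonneg _) (hA' x)
      · simp
    have hb1 : ∀ x, |b x| ≤ 1 := by
      intro x
      rw [hb]
      dsimp only
      split_ifs
      · rw [abs_mul]
        exact mul_le_one₀ (hB x) (abs_nonneg _) (hB' x)
      · simp
    have ha2 : ∀ x, a x ≠ 0 → Odd x ∧ Squarefree x ∧ Z ≤ x := by
      intro x hx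
      rw [ha] at hx
      dsimp only at hx
      by_cases hZx : Z ≤ x
      · rw [if_pos hZx] at hx
        have := hA2 x (left_ne_zero_of_mul hx)
        exact ⟨this.1, this.2, hZx⟩
      · rw [if_neg hZx] at hx
        exact absurd rfl hx
    have hb2 : ∀ x, b x ≠ 0 → Odd x ∧ Squarefree x ∧ Z ≤ x := by
      intro x hx
      rw [hb] at hx
      dsimp only at hx
      by_cases hZx : Z ≤ x
      · rw [if_pos hZx] at hx
        have := hB2 x (left_ne_zero_of_mul hx)
        exact ⟨this.1, this.2, hZx⟩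
      · rw [if_neg hZx] at hx
        exact absurd rfl hx
    refine (hbil N Z a b ha1 hb1 ha2 hb2 hZ hN1).trans ?_
    have hNle : (N : ℝ) ≤ X / ((∏ w, D w : ℕ) : ℝ) := Nat.cast_div_le
    have hN0 : (0 : ℝ) < N := by exact_mod_cast hN1
    have hNX : (N : ℝ) ≤ X := by exact_mod_cast Nat.div_le_self _ _
    have hlog : Real.log N ≤ Real.log X := Real.log_le_log hN0 hNX
    calc C * (N : ℝ) * (1 + Real.log N) * (Z : ℝ) ^ (-(1 : ℝ) / 32)
        ≤ C * (X / ((∏ w, D w : ℕ) : ℝ)) * (1 + Real.log X) * (Z : ℝ) ^ (-(1 : ℝ) / 32) := by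
          have h0 : 0 ≤ 1 + Real.log N := by
            have := Real.log_nonneg (by exact_mod_cast hN1 : (1 : ℝ) ≤ N)
            linarith
          gcongr
      _ = _ := by ring
  refine (Finset.sum_le_sum hone).trans ?_
  rw [← Finset.mul_sum]
  have hsum : ∑ D ∈ (TX ι X).filter (fun D => D u = 1 ∧ D v = 1), 1 / ((∏ w, D w : ℕ) : ℝ)
      ≤ (1 + Real.log X) ^ (Fintype.card ι) := by
    refine le_trans ?_ (sum_recipT (ι := ι) X)
    apply Finset.sum_le_sum_of_subset_of_nonneg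
    · exact Finset.filter_subset _ _
    · intro D _ _
      positivity
  calc C * X * (1 + Real.log X) * (Z : ℝ) ^ (-(1 : ℝ) / 32) *
        ∑ D ∈ (TX ι X).filter (fun D => D u = 1 ∧ D v = 1), 1 / ((∏ w, D w : ℕ) : ℝ)
      ≤ C * X * (1 + Real.log X) * (Z : ℝ) ^ (-(1 : ℝ) / 32) *
        (1 + Real.log X) ^ (Fintype.card ι) := by gcongr
    _ = _ := by ring

/-- all linked pairs -/
theorem S1 : ∃ C : ℝ, 1 ≤ C ∧ ∀ (a17 a4 : ι → ZMod 2) (P : ι → ι → ZMod 2) (i j : ℕ)
    (X Z : ℕ) (Q : Finset (ι × ι)), (∀ q ∈ Q, P q.1 q.2 = 1 ∧ P q.2 q.1 ≠ 1) → i ≠ 0 →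
    1 ≤ X → 1 ≤ Z →
    |∑ D ∈ TX ι X, gG a17 a4 P i j D - ∑ D ∈ TX ι X, gG a17 a4 P i j D * NQ Z Q D|
      ≤ Q.card * (C * X * (1 + Real.log X) ^ (Fintype.card ι + 1) * (Z : ℝ) ^ (-(1 : ℝ) / 32)) := by
  obtain ⟨C, hC, h⟩ := S1_one (ι := ι)
  refine ⟨C, hC, ?_⟩
  intro a17 a4 P i j X Z Q hQ hi hX hZ
  induction Q using Finset.induction_on with
  | empty => simp [NQ]
  | insert q Q hq ih =>
    have h1 := ih (fun q' hq' => hQ q' (Finset.mem_insert_of_mem hq'))
    have h2 := hQ q (Finset.mem_insert_self _ _)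
    have huv : q.1 ≠ q.2 := by
      intro h3
      rw [h3] at h2
      exact h2.2 h2.1
    have hsep : SepH q.1 q.2 (NQ Z Q) :=
      NQ_sep P Z Q q.1 q.2 huv (fun q' hq' => hQ q' (Finset.mem_insert_of_mem hq')) h2.1 hq
    have h3 := h a17 a4 P i j q.1 q.2 X Z (NQ Z Q) hi huv h2.1 h2.2 hsep hX hZ
    have h4 : ∑ D ∈ TX ι X, gG a17 a4 P i j D * NQ Z (insert q Q) D
        = ∑ D ∈ TX ι X, gG a17 a4 P i j D * NQ Z Q D
          - ∑ D ∈ TX ι X, gG a17 a4 P i j D * (NQ Z Q D * bd Z q.1 q.2 D) := by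
      rw [← Finset.sum_sub_distrib]
      apply Finset.sum_congr rfl
      intro D _
      have : NQ Z (insert q Q) D = (1 - bd Z q.1 q.2 D) * NQ Z Q D := by
        unfold NQ
        rw [Finset.prod_insert hq]
      rw [this]
      ring
    rw [h4, Finset.card_insert_of_notMem hq]
    push_cast
    have h5 : ∑ D ∈ TX ι X, gG a17 a4 P i j D - (∑ D ∈ TX ι X, gG a17 a4 P i j D * NQ Z Q D
          - ∑ D ∈ TX ι X, gG a17 a4 P i j D * (NQ Z Q D * bd Z q.1 q.2 D))
        = (∑ D ∈ TX ι X, gG a17 a4 P i j D - ∑ D ∈ TX ι X, gG a17 a4 P i j D * NQ Z Q D)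
          + ∑ D ∈ TX ι X, gG a17 a4 P i j D * (NQ Z Q D * bd Z q.1 q.2 D) := by ring
    rw [h5]
    refine (abs_add_le _ _).trans ?_
    linarith

end general

end Vale.Agent.P014.FM
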