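import Mathlib
import Vale.Agent.P014.H580.K2
import Vale.Agent.P014.H687.FM2b

/-!
Trivial estimates: tuples with few large coordinates, tuples with many prime factors.
-/

namespace Vale.Agent.P014.FM

open Finset Function Vale.Agent.P014.H580 Vale.Agent.P014.H687.FM

section general

open Classical

variable {ι : Type*} [Fintype ι] [DecidableEq ι]

/-- number of factorisations of a squarefree number supported on `S` -/
lemma card_fact [Nonempty ι] (S : Finset ι) (N m : ℕ) (hm : Squarefree m) :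
    ((TX ι N).filter (fun D => ∏ u, D u = m ∧ ∀ u, u ∉ S → D u = 1)).card
      ≤ S.card ^ m.primeFactors.card := by
  classical
  set c : (ι → ℕ) → ℕ → ι := fun D p => Classical.epsilon (fun u => u ∈ S ∧ p ∣ D u) with hc
  have hcard : (Finset.pi m.primeFactors (fun _ => S)).card = S.card ^ m.primeFactors.card := by
    rw [Finset.card_pi, Finset.prod_const]
  rw [← hcard]
  have key : ∀ D : ι → ℕ, ∏ u, D u = m → (∀ u, u ∉ S → D u = 1) → ∀ p ∈ m.primeFactors,
      c D p ∈ S ∧ p ∣ D (c D p) := by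
    intro D h1 h2 p hp
    have hpp := Nat.prime_of_mem_primeFactors hp
    have hpd := Nat.dvd_of_mem_primeFactors hp
    rw [← h1] at hpd
    obtain ⟨u, _, hu⟩ := (Prime.dvd_finsetProd_iff hpp.prime _).1 hpd
    have huS : u ∈ S := by
      by_contra hcon
      rw [h2 u hcon] at hu
      exact hpp.one_lt.ne' (Nat.dvd_one.1 hu)
    exact Classical.epsilon_spec (p := fun u => u ∈ S ∧ p ∣ D u) ⟨u, huS, hu⟩
  have key2 : ∀ D : ι → ℕ, ∏ u, D u = m → (∀ u, u ∉ S → D u = 1) → ∀ u,
      (D u).primeFactors = m.primeFactors.filter (fun p => c D p = u) := by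
    intro D h1 h2 u
    have hdvd : ∀ u, D u ∣ m := fun u => by
      rw [← h1]
      exact Finset.dvd_prod_of_mem _ (Finset.mem_univ u)
    have hm0 : m ≠ 0 := hm.ne_zero
    ext p
    rw [Finset.mem_filter, Nat.mem_primeFactors]
    constructor
    · rintro ⟨hp, hpd, h0⟩
      have hpm : p ∈ m.primeFactors := Nat.mem_primeFactors.2 ⟨hp, hpd.trans (hdvd u), hm0⟩
      refine ⟨hpm, ?_⟩
      by_contra hcon
      have h3 := (key D h1 h2 p hpm).2
      have h4 : D u * D (c D p) ∣ m := by
        rw [← h1, ← Finset.mul_prod_erase univ D (Finset.mem_univ u)]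
        apply Nat.mul_dvd_mul_left
        exact Finset.dvd_prod_of_mem _ (Finset.mem_erase.2 ⟨hcon, Finset.mem_univ _⟩)
      have h5 : p * p ∣ m := (Nat.mul_dvd_mul hpd h3).trans h4
      have h6 := hm p h5
      exact hp.one_lt.ne' (Nat.isUnit_iff.1 h6)
    · rintro ⟨hpm, rfl⟩
      have h3 := (key D h1 h2 p hpm).2
      refine ⟨Nat.prime_of_mem_primeFactors hpm, h3, ?_⟩
      intro h0
      have := hdvd (c D p)
      rw [h0] at this
      exact hm0 (Nat.eq_zero_of_zero_dvd this)
  apply Finset.card_le_card_of_injOn (fun D => fun p _ => c D p)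
  · intro D hD
    have h := (Finset.mem_filter.1 (Finset.mem_coe.1 hD)).2
    rw [Finset.mem_coe, Finset.mem_pi]
    intro p hp
    exact (key D h.1 h.2 p hp).1
  · intro D hD D' hD' heq
    have h := (Finset.mem_filter.1 (Finset.mem_coe.1 hD)).2
    have h' := (Finset.mem_filter.1 (Finset.mem_coe.1 hD')).2
    funext u
    have hsq : Squarefree (D u) := Squarefree.squarefree_of_dvd
      (by rw [← h.1]; exact Finset.dvd_prod_of_mem _ (Finset.mem_univ u)) hm
    have hsq' : Squarefree (D' u) := Squarefree.squarefree_of_dvd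
      (by rw [← h'.1]; exact Finset.dvd_prod_of_mem _ (Finset.mem_univ u)) hm
    rw [← Nat.prod_primeFactors_of_squarefree hsq, ← Nat.prod_primeFactors_of_squarefree hsq']
    have : (D u).primeFactors = (D' u).primeFactors := by
      rw [key2 D h.1 h.2 u, key2 D' h'.1 h'.2 u]
      apply Finset.filter_congr
      intro p hp
      have h3 : c D p = c D' p := congrFun (congrFun heq p) hp
      rw [h3]
    rw [this]

/-- tuples supported on `S` -/
noncomputable def TS (S : Finset ι) (N : ℕ) : Finset (ι → ℕ) :=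
  (TX ι N).filter (fun D => ∀ u, u ∉ S → D u = 1)

/-- `h` of the product if the product is squarefree -/
noncomputable def sqh (h : ℕ → ℝ) (D : ι → ℕ) : ℝ :=
  if (Squarefree (∏ u, D u)) then h (∏ u, D u) else 0

/-- sums over tuples supported on `S` of a nonnegative function of the product -/
lemma sum_supp_le [Nonempty ι] (S : Finset ι) (N : ℕ) (h : ℕ → ℝ) (hh : ∀ n, 0 ≤ h n) :
    ∑ D ∈ TS S N, sqh h D ≤ ∑ n ∈ sqf N, (S.card : ℝ) ^ n.primeFactors.card * h n := by
  unfold sqh
  rw [← Finset.sum_filter]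
  have hmaps : ∀ D ∈ (TS S N).filter (fun D => Squarefree (∏ u, D u)), ∏ u, D u ∈ sqf N := by
    intro D hD
    unfold TS at hD
    rw [Finset.mem_filter, Finset.mem_filter, mem_TX] at hD
    rw [mem_sqf]
    exact ⟨⟨one_le_prod hD.1.1.1, hD.1.1.2⟩, hD.2⟩
  rw [← Finset.sum_fiberwise_of_maps_to hmaps]
  apply Finset.sum_le_sum
  intro n hn
  rw [mem_sqf] at hn
  rw [Finset.sum_congr rfl (g := fun _ => h n) (by
    intro D hD
    rw [(Finset.mem_filter.1 hD).2])]
  rw [Finset.sum_const, nsmul_eq_mul]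
  apply mul_le_mul_of_nonneg_right _ (hh n)
  have h1 := card_fact S N n hn.2
  have h2 : (((TS S N).filter
      (fun D => Squarefree (∏ u, D u))).filter (fun D => ∏ u, D u = n)).card
      ≤ ((TX ι N).filter (fun D => ∏ u, D u = n ∧ ∀ u, u ∉ S → D u = 1)).card := by
    apply Finset.card_le_card
    intro D hD
    unfold TS at hD
    simp only [Finset.mem_filter] at hD ⊢
    exact ⟨hD.1.1.1, hD.2, hD.1.1.2⟩
  exact_mod_cast h2.trans h1

/-- the basic weight -/
noncomputable def q4 (n : ℕ) : ℝ := (1 / 4) ^ n.primeFactors.card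

lemma q4_nonneg (n : ℕ) : 0 ≤ q4 n := by
  unfold q4
  positivity

omit [DecidableEq ι] in
lemma sqh_nonneg (h : ℕ → ℝ) (hh : ∀ n, 0 ≤ h n) (D : ι → ℕ) : 0 ≤ sqh h D := by
  unfold sqh
  split_ifs
  · exact hh _
  · exact le_rfl

/-- tuples with many prime factors -/
lemma tail_le [Nonempty ι] (hι : Fintype.card ι = 16) : ∃ C : ℝ, 0 < C ∧ ∀ (X J : ℕ), 3 ≤ X →
    ∑ D ∈ (TX ι X).filter (fun D => J < (∏ u, D u).primeFactors.card), sqh q4 D
      ≤ C * X * (Real.log X) ^ (7 : ℝ) * (1 / 2) ^ J := by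
  obtain ⟨C, hC, h8⟩ := fm2b 8 (by norm_num)
  refine ⟨C, hC, ?_⟩
  intro X J hX
  set h : ℕ → ℝ := fun n => if J < n.primeFactors.card then q4 n else 0 with hh
  have hh0 : ∀ n, 0 ≤ h n := by
    intro n
    rw [hh]
    dsimp only
    split_ifs
    · exact q4_nonneg n
    · exact le_rfl
  have h1 : ∑ D ∈ (TX ι X).filter (fun D => J < (∏ u, D u).primeFactors.card), sqh q4 D
      ≤ ∑ D ∈ TS (univ : Finset ι) X, sqh h D := by
    unfold TS
    rw [Finset.sum_filter, Finset.sum_filter]
    apply Finset.sum_le_sum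
    intro D _
    rw [if_pos (fun u hu => absurd (Finset.mem_univ u) hu)]
    unfold sqh
    rw [hh]
    dsimp only
    split_ifs <;> simp
  refine h1.trans ?_
  refine (sum_supp_le (univ : Finset ι) X h hh0).trans ?_
  have h2 : ∀ n ∈ sqf X, (((univ : Finset ι).card : ℝ)) ^ n.primeFactors.card * h n
      ≤ (1 / 2) ^ J * (8 : ℝ) ^ n.primeFactors.card := by
    intro n _
    rw [Finset.card_univ, hι, hh]
    dsimp only
    unfold q4
    split_ifs with hJ
    · have e1 : ((16 : ℕ) : ℝ) ^ n.primeFactors.card * ((1 : ℝ) / 4) ^ n.primeFactors.card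
          = (1 / 2) ^ n.primeFactors.card * (8 : ℝ) ^ n.primeFactors.card := by
        rw [← mul_pow, ← mul_pow]
        norm_num
      rw [e1]
      have e2 : ((1 : ℝ) / 2) ^ n.primeFactors.card ≤ (1 / 2) ^ J :=
        pow_le_pow_of_le_one (by norm_num) (by norm_num) hJ.le
      gcongr
    · rw [mul_zero]
      positivity
  refine (Finset.sum_le_sum h2).trans ?_
  rw [← Finset.mul_sum]
  have h3 := h8 X (by exact_mod_cast hX)
  rw [Nat.floor_natCast] at h3
  have e3 : (8 : ℝ) - 1 = 7 := by norm_num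
  rw [e3] at h3
  calc (1 / 2) ^ J * ∑ n ∈ sqf X, (8 : ℝ) ^ n.primeFactors.card
      ≤ (1 / 2) ^ J * (C * X * Real.log X ^ (7 : ℝ)) := by gcongr
    _ = _ := by ring

end general

end Vale.Agent.P014.FM
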