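import Mathlib
import Vale.Agent.P014.H580.K3

/-!
Tuples with at most three large coordinates are negligible.
-/

namespace Vale.Agent.P014.FM

open Finset Function Vale.Agent.P014.H580 Vale.Agent.P014.H687.FM

section general

open Classical

variable {ι : Type*} [Fintype ι] [DecidableEq ι]

/-- the set of large coordinates -/
noncomputable def Lg (Y : ℕ) (D : ι → ℕ) : Finset ι := univ.filter (fun v => Y ≤ D v)

lemma q4_anti {m n : ℕ} (h : m ∣ n) (hn : n ≠ 0) : q4 n ≤ q4 m := by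
  unfold q4
  apply pow_le_pow_of_le_one (by norm_num) (by norm_num)
  exact Finset.card_le_card (Nat.primeFactors_mono h hn)

/-- one set of large coordinates -/
lemma few_one [Nonempty ι] (C : ℝ) (hC : 0 < C)
    (h34 : ∀ x : ℝ, 3 ≤ x → ∑ n ∈ sqf ⌊x⌋₊, ((3 : ℝ) / 4) ^ n.primeFactors.card
      ≤ C * x * Real.log x ^ (((3 : ℝ) / 4) - 1))
    (X Y : ℕ) (hX : 9 ≤ X) (hY : 1 ≤ Y) (hYX : (Y ^ (Fintype.card ι)) ^ 2 ≤ X) (S : Finset ι)
    (hS : S.card ≤ 3) :
    ∑ D ∈ (TX ι X).filter (fun D => Lg Y D = S), sqh q4 D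
      ≤ 2 * C * X * (Real.log X) ^ (-(1 : ℝ) / 4) * (1 + Real.log Y) ^ (Fintype.card ι) := by
  set B : Finset ((_ : ι → ℕ) × (ι → ℕ)) :=
    (Fintype.piFinset (fun _ : ι => Icc 1 Y)).sigma (fun D' => TS S (X / ∏ u, D' u)) with hB
  set φ : (ι → ℕ) → ((_ : ι → ℕ) × (ι → ℕ)) := fun D =>
    ⟨fun w => if w ∈ S then 1 else D w, fun w => if w ∈ S then D w else 1⟩ with hφ
  have hprod : ∀ D : ι → ℕ, ∏ w, D w = (∏ w, (φ D).1 w) * ∏ w, (φ D).2 w := by
    intro D
    rw [← Finset.prod_mul_distrib]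
    apply Finset.prod_congr rfl
    intro w _
    rw [hφ]
    dsimp only
    split_ifs <;> simp
  have hinj : Function.Injective φ := by
    intro D D' h
    rw [hφ] at h
    dsimp only at h
    rw [Sigma.mk.injEq] at h
    funext w
    by_cases hw : w ∈ S
    · have h1 := congrFun (eq_of_heq h.2) w
      simpa [hw] using h1
    · have h1 := congrFun h.1 w
      simpa [hw] using h1
  have hmem : ∀ D ∈ (TX ι X).filter (fun D => Lg Y D = S), φ D ∈ B := by
    intro D hD
    rw [Finset.mem_filter, mem_TX] at hD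
    obtain ⟨⟨h1, h2⟩, h3⟩ := hD
    rw [hB, Finset.mem_sigma, Fintype.mem_piFinset]
    have hpos1 : ∀ w, 1 ≤ (φ D).1 w := by
      intro w
      rw [hφ]
      dsimp only
      split_ifs
      · exact le_rfl
      · exact h1 w
    have hpos2 : ∀ w, 1 ≤ (φ D).2 w := by
      intro w
      rw [hφ]
      dsimp only
      split_ifs
      · exact h1 w
      · exact le_rfl
    refine ⟨?_, ?_⟩
    · intro w
      rw [Finset.mem_Icc]
      refine ⟨hpos1 w, ?_⟩
      rw [hφ]
      dsimp only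
      split_ifs with hw
      · exact hY
      · by_contra hcon
        push Not at hcon
        apply hw
        rw [← h3]
        unfold Lg
        rw [Finset.mem_filter]
        exact ⟨Finset.mem_univ _, hcon.le⟩
    · unfold TS
      rw [Finset.mem_filter, mem_TX]
      refine ⟨⟨hpos2, ?_⟩, ?_⟩
      · rw [Nat.le_div_iff_mul_le (one_le_prod hpos1), mul_comm, ← hprod D]
        exact h2
      · intro w hw
        rw [hφ]
        dsimp only
        rw [if_neg hw]
  have hle : ∀ D ∈ (TX ι X).filter (fun D => Lg Y D = S), sqh q4 D ≤ sqh q4 (φ D).2 := by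
    intro D hD
    unfold sqh
    by_cases h : Squarefree (∏ w, D w)
    · have hd : ∏ w, (φ D).2 w ∣ ∏ w, D w := by
        rw [hprod D]
        exact Dvd.intro_left _ rfl
      rw [if_pos h, if_pos (Squarefree.squarefree_of_dvd hd h)]
      exact q4_anti hd h.ne_zero
    · rw [if_neg h]
      split_ifs
      · exact q4_nonneg _
      · exact le_rfl
  have hstep1 : ∑ D ∈ (TX ι X).filter (fun D => Lg Y D = S), sqh q4 D
      ≤ ∑ q ∈ B, sqh q4 q.2 := by
    calc ∑ D ∈ (TX ι X).filter (fun D => Lg Y D = S), sqh q4 D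
        ≤ ∑ D ∈ (TX ι X).filter (fun D => Lg Y D = S), sqh q4 (φ D).2 := Finset.sum_le_sum hle
      _ = ∑ q ∈ ((TX ι X).filter (fun D => Lg Y D = S)).image φ, sqh q4 q.2 := by
          rw [Finset.sum_image]
          intro a _ b _ hab
          exact hinj hab
      _ ≤ ∑ q ∈ B, sqh q4 q.2 := by
          apply Finset.sum_le_sum_of_subset_of_nonneg
          · intro q hq
            obtain ⟨D, hD, rfl⟩ := Finset.mem_image.1 hq
            exact hmem D hD
          · intro q _ _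
            exact sqh_nonneg _ q4_nonneg _
  refine hstep1.trans ?_
  rw [hB, Finset.sum_sigma]
  have hXR : (9 : ℝ) ≤ X := by exact_mod_cast hX
  have hlogX : 0 < Real.log X := Real.log_pos (by linarith)
  have hinner : ∀ D' ∈ Fintype.piFinset (fun _ : ι => Icc 1 Y),
      ∑ D'' ∈ TS S (X / ∏ u, D' u), sqh q4 D''
        ≤ 2 * C * X * (Real.log X) ^ (-(1 : ℝ) / 4) * (∏ u, (1 : ℝ) / (D' u : ℝ)) := by
    intro D' hD'
    rw [Fintype.mem_piFinset] at hD'
    set a := ∏ u, D' u with ha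
    have ha1 : 1 ≤ a := one_le_prod (fun u => (Finset.mem_Icc.1 (hD' u)).1)
    have haY : a ≤ Y ^ (Fintype.card ι) := by
      rw [ha]
      calc ∏ u, D' u ≤ ∏ _u : ι, Y := Finset.prod_le_prod' (fun u _ => (Finset.mem_Icc.1 (hD' u)).2)
        _ = Y ^ (Fintype.card ι) := by rw [Finset.prod_const, Finset.card_univ]
    have ha2 : a ^ 2 ≤ X := (Nat.pow_le_pow_left haY 2).trans hYX
    have haR : (0 : ℝ) < a := by exact_mod_cast ha1
    have ha2R : (a : ℝ) ^ 2 ≤ X := by exact_mod_cast ha2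
    have hx1 : Real.sqrt X ≤ (X : ℝ) / a := by
      rw [le_div_iff₀ haR]
      have h1 : (a : ℝ) ≤ Real.sqrt X := Real.le_sqrt_of_sq_le ha2R
      calc Real.sqrt X * a ≤ Real.sqrt X * Real.sqrt X := by gcongr
        _ = X := Real.mul_self_sqrt (by linarith)
    have hx3 : (3 : ℝ) ≤ (X : ℝ) / a := by
      refine le_trans ?_ hx1
      apply Real.le_sqrt_of_sq_le
      linarith
    have hxpos : (0 : ℝ) < (X : ℝ) / a := by linarith
    have hlogx : Real.log X / 2 ≤ Real.log ((X : ℝ) / a) := by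
      rw [← Real.log_sqrt (by linarith)]
      exact Real.log_le_log (Real.sqrt_pos.2 (by linarith)) hx1
    refine (sum_supp_le S _ q4 q4_nonneg).trans ?_
    have h1 : ∀ n ∈ sqf (X / a), (S.card : ℝ) ^ n.primeFactors.card * q4 n
        ≤ ((3 : ℝ) / 4) ^ n.primeFactors.card := by
      intro n _
      unfold q4
      rw [← mul_pow]
      apply pow_le_pow_left₀ (mul_nonneg (Nat.cast_nonneg _) (by norm_num))
      have : (S.card : ℝ) ≤ 3 := by exact_mod_cast hS
      linarith
    refine (Finset.sum_le_sum h1).trans ?_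
    have h2 := h34 ((X : ℝ) / a) hx3
    rw [Nat.floor_div_natCast, Nat.floor_natCast] at h2
    refine h2.trans ?_
    have e1 : ((3 : ℝ) / 4) - 1 = -(1 : ℝ) / 4 := by norm_num
    rw [e1]
    have h3 : Real.log ((X : ℝ) / a) ^ (-(1 : ℝ) / 4) ≤ 2 * (Real.log X) ^ (-(1 : ℝ) / 4) := by
      calc Real.log ((X : ℝ) / a) ^ (-(1 : ℝ) / 4) ≤ (Real.log X / 2) ^ (-(1 : ℝ) / 4) := by
            apply Real.rpow_le_rpow_of_nonpos (by positivity) hlogx (by norm_num)
        _ = (2 : ℝ) ^ ((1 : ℝ) / 4) * (Real.log X) ^ (-(1 : ℝ) / 4) := by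
            rw [Real.div_rpow hlogX.le (by norm_num)]
            rw [div_eq_mul_inv, ← Real.rpow_neg (by norm_num), mul_comm]
            norm_num
        _ ≤ 2 * (Real.log X) ^ (-(1 : ℝ) / 4) := by
            gcongr
            calc (2 : ℝ) ^ ((1 : ℝ) / 4) ≤ (2 : ℝ) ^ (1 : ℝ) :=
                  Real.rpow_le_rpow_of_exponent_le (by norm_num) (by norm_num)
              _ = 2 := Real.rpow_one 2
    have e2 : ∏ u, (1 : ℝ) / (D' u : ℝ) = 1 / (a : ℝ) := by
      rw [Finset.prod_div_distrib, Finset.prod_const_one, ha]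
      push_cast
      rfl
    rw [e2]
    calc C * ((X : ℝ) / a) * Real.log ((X : ℝ) / a) ^ (-(1 : ℝ) / 4)
        ≤ C * ((X : ℝ) / a) * (2 * (Real.log X) ^ (-(1 : ℝ) / 4)) := by gcongr
      _ = _ := by ring
  refine (Finset.sum_le_sum hinner).trans ?_
  rw [← Finset.mul_sum]
  rw [← Finset.prod_univ_sum (fun _ : ι => Icc 1 Y) (fun _ j => (1 : ℝ) / (j : ℝ))]
  rw [Finset.prod_const, Finset.card_univ]
  have h2 := Vale.Agent.P014.H580.harm_le Y
  have h3 : 0 ≤ ∑ e ∈ Icc 1 Y, (1 : ℝ) / e := Finset.sum_nonneg (fun _ _ => by positivity)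
  gcongr

/-- at most three large coordinates -/
lemma few_le [Nonempty ι] : ∃ C : ℝ, 0 < C ∧ ∀ (X Y : ℕ), 9 ≤ X → 1 ≤ Y →
    (Y ^ (Fintype.card ι)) ^ 2 ≤ X →
    ∑ D ∈ (TX ι X).filter (fun D => (Lg Y D).card ≤ 3), sqh q4 D
      ≤ C * X * (Real.log X) ^ (-(1 : ℝ) / 4) * (1 + Real.log Y) ^ (Fintype.card ι) := by
  obtain ⟨C, hC, h34⟩ := fm2b (3 / 4) (by norm_num)
  refine ⟨2 ^ (Fintype.card ι) * (2 * C), by positivity, ?_⟩
  intro X Y hX hY hYX
  have hXR : (9 : ℝ) ≤ X := by exact_mod_cast hX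
  have hlogX : 0 < Real.log X := Real.log_pos (by linarith)
  have hYR : (1 : ℝ) ≤ Y := by exact_mod_cast hY
  have hlogY : 0 ≤ Real.log Y := Real.log_nonneg hYR
  have hmaps : ∀ D ∈ (TX ι X).filter (fun D => (Lg Y D).card ≤ 3),
      Lg Y D ∈ (univ : Finset ι).powerset.filter (fun S => S.card ≤ 3) := by
    intro D hD
    rw [Finset.mem_filter, Finset.mem_powerset]
    exact ⟨Finset.subset_univ _, (Finset.mem_filter.1 hD).2⟩
  rw [← Finset.sum_fiberwise_of_maps_to hmaps]
  have h1 : ∀ S ∈ (univ : Finset ι).powerset.filter (fun S => S.card ≤ 3),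
      ∑ D ∈ ((TX ι X).filter (fun D => (Lg Y D).card ≤ 3)).filter (fun D => Lg Y D = S), sqh q4 D
      ≤ 2 * C * X * (Real.log X) ^ (-(1 : ℝ) / 4) * (1 + Real.log Y) ^ (Fintype.card ι) := by
    intro S hS
    have hS3 := (Finset.mem_filter.1 hS).2
    refine le_trans ?_ (few_one C hC h34 X Y hX hY hYX S hS3)
    apply Finset.sum_le_sum_of_subset_of_nonneg
    · intro D hD
      rw [Finset.mem_filter, Finset.mem_filter] at hD
      rw [Finset.mem_filter]
      exact ⟨hD.1.1, hD.2⟩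
    · intro D _ _
      exact sqh_nonneg _ q4_nonneg _
  refine (Finset.sum_le_sum h1).trans ?_
  rw [Finset.sum_const, nsmul_eq_mul]
  have h2 : ((((univ : Finset ι).powerset.filter (fun S => S.card ≤ 3)).card : ℕ) : ℝ)
      ≤ 2 ^ (Fintype.card ι) := by
    have h3 := Finset.card_le_card
      (Finset.filter_subset (fun S => S.card ≤ 3) ((univ : Finset ι).powerset))
    rw [Finset.card_powerset, Finset.card_univ] at h3
    exact_mod_cast h3
  calc _ ≤ 2 ^ (Fintype.card ι) *
        (2 * C * X * (Real.log X) ^ (-(1 : ℝ) / 4) * (1 + Real.log Y) ^ (Fintype.card ι)) := by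
        gcongr
    _ = _ := by ring

end general

end Vale.Agent.P014.FM
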