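import Mathlib
import Vale.Agent.P014.H580.K4

/-!
The summand as a function of one coordinate is a real character.
-/

namespace Vale.Agent.P014.FM

open Finset Function Vale.Agent.P014.H580 Vale.Agent.P014.H687.FM

lemma J_one_right (x : ℕ) : J x 1 = 1 := by
  unfold J
  simp

lemma J_pow_right (x b k : ℕ) : J x (b ^ k) = J x b ^ k := by
  unfold J
  rw [jacobiSym.pow_right, Int.cast_pow]

lemma chi4_odd {x : ℕ} (hx : Odd x) : chi4 x = x4 x := by
  unfold chi4 x4
  rw [Nat.odd_iff] at hx
  have h : x % 4 = 1 ∨ x % 4 = 3 := by omega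
  rcases h with h | h
  · rw [if_pos h]
    have : Even (x / 2) := by rw [Nat.even_iff]; omega
    rw [this.neg_one_pow]
  · rw [if_neg (by omega), if_pos h]
    have : Odd (x / 2) := by rw [Nat.odd_iff]; omega
    rw [this.neg_one_pow]

/-- reciprocity with the character modulo 4 -/
lemma J_recip {m x : ℕ} (hm : Odd m) (hx : Odd x) :
    J m x = chi4 x ^ (if m % 4 = 3 then 1 else 0) * J x m := by
  rw [recip hm hx, ← chi4_odd hx, ← chi4_odd hm]
  have h : m % 4 = 1 ∨ m % 4 = 3 := by
    rw [Nat.odd_iff] at hm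
    omega
  rcases h with h | h
  · have h1 : chi4 m = 1 := by unfold chi4; rw [if_pos h]
    rw [h1, if_neg (by omega), pow_zero]
    ring
  · have h1 : chi4 m = -1 := by unfold chi4; rw [if_neg (by omega), if_pos h]
    rw [h1, if_pos h, pow_one]
    ring

lemma J_sq {x m : ℕ} (h : Nat.Coprime x m) : J x m * J x m = 1 := by
  unfold J
  have := jacobiSym.sq_one (a := (x : ℤ)) (b := m) (by rwa [Int.gcd_natCast_natCast])
  rw [← Int.cast_mul, ← sq, this]
  simp

/-- functions which are characters on odd numbers prime to `r` -/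
def Ty (r : ℕ) (F : ℕ → ℝ) (Q : ℕ) : Prop :=
  Q ≠ 0 ∧ ∃ c : ℝ, |c| ≤ 1 ∧ ∃ a : ℕ, ∀ x, Odd x → Nat.Coprime x r → F x = c * (chi4 x ^ a * J x Q)

lemma Ty.const (r : ℕ) {c : ℝ} (hc : |c| ≤ 1) : Ty r (fun _ => c) 1 := by
  refine ⟨one_ne_zero, c, hc, 0, ?_⟩
  intro x _ _
  rw [J_one_right]
  ring

lemma Ty.mul {r : ℕ} {F G : ℕ → ℝ} {Q Q' : ℕ} (h : Ty r F Q) (h' : Ty r G Q') :
    Ty r (fun x => F x * G x) (Q * Q') := by
  obtain ⟨hQ, c, hc, a, h1⟩ := h
  obtain ⟨hQ', c', hc', a', h1'⟩ := h'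
  refine ⟨mul_ne_zero hQ hQ', c * c', ?_, a + a', ?_⟩
  · rw [abs_mul]
    exact mul_le_one₀ hc (abs_nonneg _) hc'
  · intro x hx hxr
    dsimp only
    rw [h1 x hx hxr, h1' x hx hxr, J_mul_right _ _ _ hQ hQ', pow_add]
    ring

lemma Ty.prod {r : ℕ} {κ : Type*} (s : Finset κ) (F : κ → ℕ → ℝ) (Q : κ → ℕ)
    (h : ∀ k ∈ s, Ty r (F k) (Q k)) : Ty r (fun x => ∏ k ∈ s, F k x) (∏ k ∈ s, Q k) := by
  classical
  induction s using Finset.induction_on with
  | empty => simpa using Ty.const r (c := 1) (by simp)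
  | insert a s ha ih =>
    have h1 := Ty.mul (h a (Finset.mem_insert_self _ _))
      (ih (fun k hk => h k (Finset.mem_insert_of_mem hk)))
    simpa [Finset.prod_insert ha] using h1

lemma Ty.chi (r : ℕ) : Ty r chi4 1 := by
  refine ⟨one_ne_zero, 1, by simp, 1, ?_⟩
  intro x _ _
  rw [J_one_right]
  ring

lemma Ty.J1 (r : ℕ) {m : ℕ} (hm : m ≠ 0) : Ty r (fun x => J x m) m := by
  refine ⟨hm, 1, by simp, 0, ?_⟩
  intro x _ _
  ring

lemma Ty.J2 (r : ℕ) {m : ℕ} (hm : Odd m) : Ty r (fun x => J m x) m := by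
  refine ⟨hm.pos.ne', 1, by simp, (if m % 4 = 3 then 1 else 0), ?_⟩
  intro x hx _
  dsimp only
  rw [J_recip hm hx]
  ring

lemma Ty.J12 {r m : ℕ} (hm : Odd m) (hmr : m ∣ r) : Ty r (fun x => J x m * J m x) 1 := by
  refine ⟨one_ne_zero, 1, by simp, (if m % 4 = 3 then 1 else 0), ?_⟩
  intro x hx hxr
  have h := J_sq (Nat.Coprime.coprime_dvd_right hmr hxr)
  dsimp only
  rw [J_recip hm hx, J_one_right]
  linear_combination (chi4 x ^ (if m % 4 = 3 then 1 else 0)) * h

section general

variable {ι : Type*} [Fintype ι] [DecidableEq ι]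

/-- the product of the coordinates linked to `v` -/
def lprod (P : ι → ι → ZMod 2) (v : ι) (D : ι → ℕ) : ℕ := ∏ t, if P v t = P t v then 1 else D t

/-- all factors of the sign in which the coordinate `v` occurs in a symbol -/
lemma wt2_ty (P : ι → ι → ZMod 2) (hP : ∀ w, P w w = 0) (v : ι) (D : ι → ℕ) (hodd : Odd (∏ u, D u)) :
    Ty (∏ u, D u) (fun x => ∏ s, ∏ t, (if P s t = 1 then J (update D v x s) (update D v x t) else 1))
      (lprod P v D) := by
  set r := ∏ u, D u with hr
  have hdvd : ∀ t, D t ∣ r := fun t => Finset.dvd_prod_of_mem _ (Finset.mem_univ t)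
  have hoddt : ∀ t, Odd (D t) := fun t => by
    rcases hdvd t with ⟨k, hk⟩
    rw [hk, Nat.odd_mul] at hodd
    exact hodd.1
  have hJif : ∀ (c : Prop) [Decidable c] (a b : ℕ), |(if c then J a b else 1)| ≤ 1 := by
    intro c _ a b
    split_ifs
    · exact J_abs _ _
    · simp
  -- decomposition
  have hdec : ∀ x, ∏ s, ∏ t, (if P s t = 1 then J (update D v x s) (update D v x t) else 1)
      = (∏ t ∈ univ.erase v, ((if P v t = 1 then J x (D t) else 1) *
          (if P t v = 1 then J (D t) x else 1))) *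
        ∏ s ∈ univ.erase v, ∏ t ∈ univ.erase v, (if P s t = 1 then J (D s) (D t) else 1) := by
    intro x
    rw [← Finset.mul_prod_erase univ _ (Finset.mem_univ v)]
    rw [← Finset.mul_prod_erase univ (fun t => (if P v t = 1 then J (update D v x v) (update D v x t)
      else 1)) (Finset.mem_univ v)]
    have h1 : ∀ s ∈ univ.erase v, ∏ t, (if P s t = 1 then J (update D v x s) (update D v x t) else 1)
        = (if P s v = 1 then J (D s) x else 1) *
          ∏ t ∈ univ.erase v, (if P s t = 1 then J (D s) (D t) else 1) := by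
      intro s hs
      rw [← Finset.mul_prod_erase univ _ (Finset.mem_univ v)]
      rw [update_self, update_of_ne (Finset.ne_of_mem_erase hs)]
      congr 1
      apply Finset.prod_congr rfl
      intro t ht
      rw [update_of_ne (Finset.ne_of_mem_erase ht)]
    rw [Finset.prod_congr rfl h1, Finset.prod_mul_distrib, Finset.prod_mul_distrib]
    have h2 : ∏ t ∈ univ.erase v, (if P v t = 1 then J (update D v x v) (update D v x t) else 1)
        = ∏ t ∈ univ.erase v, (if P v t = 1 then J x (D t) else 1) := by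
      apply Finset.prod_congr rfl
      intro t ht
      rw [update_self, update_of_ne (Finset.ne_of_mem_erase ht)]
    rw [h2, hP v]
    rw [if_neg (by decide)]
    ring
  have hty1 : ∀ t ∈ univ.erase v, Ty r (fun x => (if P v t = 1 then J x (D t) else 1) *
          (if P t v = 1 then J (D t) x else 1)) (if P v t = P t v then 1 else D t) := by
    intro t _
    by_cases h1 : P v t = 1
    · by_cases h2 : P t v = 1
      · simp only [h1, h2, if_true]
        exact Ty.J12 (hoddt t) (hdvd t)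
      · have h3 : ¬ (P v t = P t v) := by
          rw [h1]
          exact fun h => h2 h.symm
        simp only [if_pos h1, if_neg h2, if_neg h3, mul_one]
        exact Ty.J1 r (hoddt t).pos.ne'
    · by_cases h2 : P t v = 1
      · have h3 : ¬ (P v t = P t v) := by
          rw [h2]
          exact h1
        simp only [if_neg h1, if_pos h2, if_neg h3, one_mul]
        exact Ty.J2 r (hoddt t)
      · have h01 : ∀ z : ZMod 2, z ≠ 1 → z = 0 := by decide
        have h3 : P v t = P t v := by rw [h01 _ h1, h01 _ h2]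
        simp only [if_neg h1, if_neg h2, if_pos h3, mul_one]
        exact Ty.const r (by simp)
  have h1 := Ty.prod (univ.erase v) _ _ hty1
  have hc : |∏ s ∈ univ.erase v, ∏ t ∈ univ.erase v, (if P s t = 1 then J (D s) (D t) else 1)|
      ≤ 1 := by
    rw [Finset.abs_prod]
    apply Finset.prod_le_one (fun _ _ => abs_nonneg _)
    intro s _
    rw [Finset.abs_prod]
    exact Finset.prod_le_one (fun _ _ => abs_nonneg _) (fun t _ => hJif _ _ _)
  have h2 := Ty.mul h1 (Ty.const r hc)
  have hQ : (∏ t ∈ univ.erase v, if P v t = P t v then 1 else D t) * 1 = lprod P v D := by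
    unfold lprod
    rw [← Finset.mul_prod_erase univ _ (Finset.mem_univ v), if_pos rfl]
    ring
  rw [hQ] at h2
  simp only [hdec]
  exact h2

/-- the summand as a function of one coordinate -/
lemma one_var (a17 a4 : ι → ZMod 2) (P : ι → ι → ZMod 2) (hP : ∀ w, P w w = 0) (i j : ℕ)
    (hi : i ≠ 0) (v : ι) (D : ι → ℕ) (hDv : D v = 1) (hodd : Odd (∏ u, D u)) :
    ∃ c : ℝ, |c| ≤ 1 ∧ ∃ a : ℕ, a ≠ 0 ∧ ∀ x, gG a17 a4 P i j (update D v x)
      = c * ((if Squarefree x ∧ Nat.Coprime x (∏ u, D u) then q4 x else 0) *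
        (chi4 x ^ a * J x (17 ^ (j + if a17 v = 1 then 1 else 0) * lprod P v D))) := by
  set r := ∏ u, D u with hr
  obtain ⟨hQ0, c, hc, a, h⟩ := wt2_ty P hP v D hodd
  rw [← hr] at h
  set A : ℝ := ∏ w ∈ univ.erase v,
    (if a17 w = 1 then J (D w) 17 else 1) * (if a4 w = 1 then chi4 (D w) else 1) with hA
  have hJif : ∀ (c : Prop) [Decidable c] (a b : ℕ), |(if c then J a b else 1)| ≤ 1 := by
    intro c _ a b
    split_ifs
    · exact J_abs _ _
    · simp
  have hA1 : |A| ≤ 1 := by
    rw [hA, Finset.abs_prod]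
    apply Finset.prod_le_one (fun _ _ => abs_nonneg _)
    intro w _
    rw [abs_mul]
    refine mul_le_one₀ (hJif _ _ _) (abs_nonneg _) ?_
    split_ifs
    · exact chi4_abs _
    · simp
  have hwt1 : ∀ x, ∏ w, ((if a17 w = 1 then J (update D v x w) 17 else 1) *
      (if a4 w = 1 then chi4 (update D v x w) else 1))
      = ((if a17 v = 1 then J x 17 else 1) * (if a4 v = 1 then chi4 x else 1)) * A := by
    intro x
    rw [← Finset.mul_prod_erase univ _ (Finset.mem_univ v), update_self, hA]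
    congr 1
    apply Finset.prod_congr rfl
    intro w hw
    rw [update_of_ne (Finset.ne_of_mem_erase hw)]
  refine ⟨pw i j r * A * c, ?_, i + (if a4 v = 1 then 1 else 0) + a, by omega, ?_⟩
  · rw [abs_mul, abs_mul]
    exact mul_le_one₀ (mul_le_one₀ (pw_abs _ _ _) (abs_nonneg _) hA1) (abs_nonneg _) hc
  intro x
  unfold gG
  rw [prod_upd D v x hDv, ← hr]
  by_cases hxr : Nat.Coprime x r
  · rw [pw_mul hxr]
    by_cases hsq : Squarefree x
    · by_cases hx : Odd x
      · rw [if_pos ⟨hsq, hxr⟩]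
        unfold wtG
        have hx2 := h x hx hxr
        dsimp only at hx2
        rw [hwt1 x, hx2]
        have hpw : pw i j x = q4 x * chi4 x ^ i * J x 17 ^ j := by
          unfold pw q4
          rw [if_pos hsq]
        rw [hpw, J_mul_right _ _ _ (by positivity) hQ0, J_pow_right, pow_add, pow_add, pow_add]
        have e1 : (if a17 v = 1 then J x 17 else 1) = J x 17 ^ (if a17 v = 1 then 1 else 0) := by
          split_ifs <;> simp
        have e2 : (if a4 v = 1 then chi4 x else 1) = chi4 x ^ (if a4 v = 1 then 1 else 0) := by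
          split_ifs <;> simp
        rw [e1, e2]
        ring
      · rw [pw_even hi hx, chi4_even hx, pow_add, pow_add, zero_pow hi]
        ring
    · rw [pw_not_sq hsq, if_neg (fun h => hsq h.1)]
      ring
  · rw [if_neg (fun h => hxr h.2), pw_not_sq]
    · ring
    · intro h3
      exact hxr (Nat.coprime_of_squarefree_mul h3)

omit [DecidableEq ι] in
lemma wtG_abs (a17 a4 : ι → ZMod 2) (P : ι → ι → ZMod 2) (D : ι → ℕ) : |wtG a17 a4 P D| ≤ 1 := by
  have hJif : ∀ (c : Prop) [Decidable c] (a b : ℕ), |(if c then J a b else 1)| ≤ 1 := by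
    intro c _ a b
    split_ifs
    · exact J_abs _ _
    · simp
  unfold wtG
  rw [abs_mul, Finset.abs_prod, Finset.abs_prod]
  refine mul_le_one₀ ?_ (Finset.prod_nonneg (fun _ _ => abs_nonneg _)) ?_
  · apply Finset.prod_le_one (fun _ _ => abs_nonneg _)
    intro w _
    rw [abs_mul]
    refine mul_le_one₀ (hJif _ _ _) (abs_nonneg _) ?_
    split_ifs
    · exact chi4_abs _
    · simp
  · apply Finset.prod_le_one (fun _ _ => abs_nonneg _)
    intro s _
    rw [Finset.abs_prod]
    exact Finset.prod_le_one (fun _ _ => abs_nonneg _) (fun t _ => hJif _ _ _)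

omit [DecidableEq ι] in
lemma gG_abs (a17 a4 : ι → ZMod 2) (P : ι → ι → ZMod 2) (i j : ℕ) (D : ι → ℕ) :
    |gG a17 a4 P i j D| ≤ sqh q4 D := by
  unfold gG sqh
  rw [abs_mul]
  have h1 : |pw i j (∏ u, D u)| ≤ if Squarefree (∏ u, D u) then q4 (∏ u, D u) else 0 := by
    by_cases h : Squarefree (∏ u, D u)
    · rw [if_pos h]
      unfold pw
      rw [if_pos h, abs_mul, abs_mul, abs_pow (chi4 _), abs_pow (J _ _)]
      have h1 : |chi4 (∏ u, D u)| ^ i ≤ 1 := pow_le_one₀ (abs_nonneg _) (chi4_abs _)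
      have h2 : |J (∏ u, D u) 17| ^ j ≤ 1 := pow_le_one₀ (abs_nonneg _) (J_abs _ 17)
      have h3 : |((1 : ℝ) / 4) ^ (∏ u, D u).primeFactors.card| = q4 (∏ u, D u) := by
        unfold q4
        rw [abs_of_nonneg (by positivity)]
      rw [h3]
      have h4 := q4_nonneg (∏ u, D u)
      calc q4 (∏ u, D u) * |chi4 (∏ u, D u)| ^ i * |J (∏ u, D u) 17| ^ j
          ≤ q4 (∏ u, D u) * 1 * 1 := by gcongr
        _ = q4 (∏ u, D u) := by ring
    · rw [if_neg h, pw_not_sq h]
      simp
  calc |pw i j (∏ u, D u)| * |wtG a17 a4 P D| ≤ |pw i j (∏ u, D u)| * 1 :=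
        mul_le_mul_of_nonneg_left (wtG_abs a17 a4 P D) (abs_nonneg _)
    _ = |pw i j (∏ u, D u)| := mul_one _
    _ ≤ _ := h1

end general

end Vale.Agent.P014.FM
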