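import Mathlib
import Vale.Agent.P014.H580.K5

/-!
Tuples with a large coordinate linked to a small nontrivial coordinate, combinatorial part.
-/

namespace Vale.Agent.P014.FM

open Finset Function Vale.Agent.P014.H580 Vale.Agent.P014.H687.FM

section general

open Classical

variable {ι : Type*} [Fintype ι] [DecidableEq ι]

/-- large coordinate linked to a nontrivial coordinate -/
noncomputable def Cv (P : ι → ι → ZMod 2) (Y : ℕ) (v : ι) (D : ι → ℕ) : ℝ :=
  if Y ≤ D v ∧ ∃ w, P v w ≠ P w v ∧ 1 < D w then 1 else 0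

/-- no such coordinate in `V` -/
noncomputable def MV (P : ι → ι → ZMod 2) (Y : ℕ) (V : Finset ι) (D : ι → ℕ) : ℝ :=
  ∏ v ∈ V, (1 - Cv P Y v D)

/-- all oriented linked pairs -/
noncomputable def allP (P : ι → ι → ZMod 2) : Finset (ι × ι) :=
  univ.filter (fun q => P q.1 q.2 = 1 ∧ P q.2 q.1 ≠ 1)

/-- the weight for the coordinate `v` -/
noncomputable def HH (P : ι → ι → ZMod 2) (Z Y : ℕ) (V : Finset ι) (v : ι) (D : ι → ℕ) : ℝ :=
  NQ Z (allP P) D * (MV P Y V D * Cv P Y v D)

omit [DecidableEq ι] in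
lemma Cv_cases (P : ι → ι → ZMod 2) (Y : ℕ) (v : ι) (D : ι → ℕ) :
    Cv P Y v D = 0 ∨ Cv P Y v D = 1 := by
  unfold Cv
  split_ifs <;> simp

omit [DecidableEq ι] in
lemma MV_cases (P : ι → ι → ZMod 2) (Y : ℕ) (V : Finset ι) (D : ι → ℕ) :
    MV P Y V D = 0 ∨ MV P Y V D = 1 := by
  unfold MV
  by_cases h : ∃ v ∈ V, Cv P Y v D = 1
  · obtain ⟨v, hv, h1⟩ := h
    left
    exact Finset.prod_eq_zero hv (by rw [h1]; ring)
  · right
    push Not at h
    apply Finset.prod_eq_one
    intro v hv
    rcases Cv_cases P Y v D with h1 | h1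
    · rw [h1]; ring
    · exact absurd h1 (h v hv)

omit [Fintype ι] [DecidableEq ι] in
lemma NQ_cases (Z : ℕ) (Q : Finset (ι × ι)) (D : ι → ℕ) : NQ Z Q D = 0 ∨ NQ Z Q D = 1 := by
  unfold NQ
  by_cases h : ∃ q ∈ Q, bd Z q.1 q.2 D = 1
  · obtain ⟨v, hv, h1⟩ := h
    left
    exact Finset.prod_eq_zero hv (by rw [h1]; ring)
  · right
    push Not at h
    apply Finset.prod_eq_one
    intro v hv
    rcases bd_cases Z v.1 v.2 D with h1 | h1
    · rw [h1]; ring
    · exact absurd h1 (h v hv)

omit [DecidableEq ι] in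
lemma HH_cases (P : ι → ι → ZMod 2) (Z Y : ℕ) (V : Finset ι) (v : ι) (D : ι → ℕ) :
    HH P Z Y V v D = 0 ∨ HH P Z Y V v D = 1 := by
  unfold HH
  rcases NQ_cases Z (allP P) D with h | h <;> rcases MV_cases P Y V D with h' | h' <;>
    rcases Cv_cases P Y v D with h'' | h'' <;> rw [h, h', h''] <;> simp

omit [DecidableEq ι] in
lemma HH_abs (P : ι → ι → ZMod 2) (Z Y : ℕ) (V : Finset ι) (v : ι) (D : ι → ℕ) :
    |HH P Z Y V v D| ≤ 1 := by
  rcases HH_cases P Z Y V v D with h | h <;> rw [h] <;> simp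

/-- the weight does not depend on the size of the coordinate `v`, once it is large -/
lemma HH_upd (P : ι → ι → ZMod 2) (Z Y : ℕ) (V : Finset ι) (v : ι) (D : ι → ℕ) (hY : 2 ≤ Y)
    (hZ : Z ≤ Y) (x : ℕ) (hx : Y ≤ x) :
    HH P Z Y V v (update D v x) = HH P Z Y V v (update D v Y) := by
  have hzz : ∀ w, (Z ≤ update D v x w ↔ Z ≤ update D v Y w) := by
    intro w
    by_cases hw : w = v
    · subst hw
      simp only [update_self]
      constructor <;> intro <;> omega
    · simp only [update_of_ne hw]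
  have hyy : ∀ w, (Y ≤ update D v x w ↔ Y ≤ update D v Y w) := by
    intro w
    by_cases hw : w = v
    · subst hw
      simp only [update_self]
      constructor <;> intro <;> omega
    · simp only [update_of_ne hw]
  have h11 : ∀ w, (1 < update D v x w ↔ 1 < update D v Y w) := by
    intro w
    by_cases hw : w = v
    · subst hw
      simp only [update_self]
      constructor <;> intro <;> omega
    · simp only [update_of_ne hw]
  have hC : ∀ w, Cv P Y w (update D v x) = Cv P Y w (update D v Y) := by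
    intro w
    unfold Cv
    simp only [hyy, h11]
  have hb : ∀ q : ι × ι, bd Z q.1 q.2 (update D v x) = bd Z q.1 q.2 (update D v Y) := by
    intro q
    unfold bd
    simp only [hzz]
  unfold HH NQ MV
  simp only [hC, hb]

lemma HH_small (P : ι → ι → ZMod 2) (Z Y : ℕ) (V : Finset ι) (v : ι) (D : ι → ℕ) (x : ℕ)
    (hx : ¬ Y ≤ x) : HH P Z Y V v (update D v x) = 0 := by
  have : Cv P Y v (update D v x) = 0 := by
    unfold Cv
    rw [if_neg]
    rintro ⟨h, _⟩
    rw [update_self] at h
    exact hx h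
  unfold HH
  rw [this]
  ring

lemma HH_ne (P : ι → ι → ZMod 2) (Z Y : ℕ) (V : Finset ι) (v : ι) (D : ι → ℕ)
    (hZ : Z ≤ Y) (h : HH P Z Y V v (update D v Y) ≠ 0) :
    (∀ t, P v t ≠ P t v → D t < Z) ∧ ∃ t, P v t ≠ P t v ∧ 1 < D t := by
  unfold HH at h
  have hN : NQ Z (allP P) (update D v Y) ≠ 0 := left_ne_zero_of_mul h
  have hC : Cv P Y v (update D v Y) ≠ 0 := right_ne_zero_of_mul (right_ne_zero_of_mul h)
  have hself : ∀ t, P v t ≠ P t v → t ≠ v := by
    rintro t ht rfl
    exact ht rfl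
  constructor
  · intro t ht
    by_contra hcon
    push Not at hcon
    have htv := hself t ht
    have h01 : ∀ a b : ZMod 2, a ≠ b → (a = 1 ∧ b ≠ 1) ∨ (b = 1 ∧ a ≠ 1) := by decide
    rcases h01 _ _ ht with h1 | h1
    · apply hN
      unfold NQ
      apply Finset.prod_eq_zero (i := (v, t))
      · unfold allP
        rw [Finset.mem_filter]
        exact ⟨Finset.mem_univ _, h1⟩
      · unfold bd
        rw [if_pos]
        · ring
        · simp only [update_self, update_of_ne htv]
          exact ⟨hZ, hcon⟩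
    · apply hN
      unfold NQ
      apply Finset.prod_eq_zero (i := (t, v))
      · unfold allP
        rw [Finset.mem_filter]
        exact ⟨Finset.mem_univ _, h1⟩
      · unfold bd
        rw [if_pos]
        · ring
        · simp only [update_self, update_of_ne htv]
          exact ⟨hcon, hZ⟩
  · unfold Cv at hC
    by_cases hc : Y ≤ update D v Y v ∧ ∃ w, P v w ≠ P w v ∧ 1 < update D v Y w
    · obtain ⟨_, w, hw1, hw2⟩ := hc
      refine ⟨w, hw1, ?_⟩
      rwa [update_of_ne (hself w hw1)] at hw2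
    · rw [if_neg hc] at hC
      exact absurd rfl hC

omit [DecidableEq ι] in
lemma lprod_dvd (P : ι → ι → ZMod 2) (v : ι) (D : ι → ℕ) : lprod P v D ∣ ∏ u, D u := by
  unfold lprod
  apply Finset.prod_dvd_prod_of_dvd
  intro t _
  split_ifs
  · exact one_dvd _
  · exact dvd_rfl

omit [DecidableEq ι] in
lemma lprod_le (P : ι → ι → ZMod 2) (v : ι) (D : ι → ℕ) (Z : ℕ) (hZ : 1 ≤ Z)
    (h : ∀ t, P v t ≠ P t v → D t < Z) : lprod P v D ≤ Z ^ (Fintype.card ι) := by
  unfold lprod
  calc ∏ t, (if P v t = P t v then 1 else D t) ≤ ∏ _t : ι, Z := by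
        apply Finset.prod_le_prod'
        intro t _
        split_ifs with ht
        · exact hZ
        · exact (h t ht).le
    _ = _ := by rw [Finset.prod_const, Finset.card_univ]

/-- the modulus is not a square -/
lemma mod_nonsq (P : ι → ι → ZMod 2) (v : ι) (D : ι → ℕ) (hsq : Squarefree (∏ u, D u))
    (h17 : ¬ 17 ∣ ∏ u, D u) (h : ∃ t, P v t ≠ P t v ∧ 1 < D t) (b : ℕ) :
    ¬ IsSquare (17 ^ b * lprod P v D) := by
  set L := lprod P v D with hL
  have hLd : L ∣ ∏ u, D u := lprod_dvd P v D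
  have hLsq : Squarefree L := Squarefree.squarefree_of_dvd hLd hsq
  have hL0 : L ≠ 0 := hLsq.ne_zero
  have hL1 : L ≠ 1 := by
    obtain ⟨t, ht1, ht2⟩ := h
    have h1 : D t ∣ L := by
      rw [hL]
      unfold lprod
      have h2 : D t = (if P v t = P t v then 1 else D t) := by rw [if_neg ht1]
      conv_lhs => rw [h2]
      exact Finset.dvd_prod_of_mem _ (Finset.mem_univ t)
    intro h3
    rw [h3] at h1
    have := Nat.dvd_one.1 h1
    omega
  obtain ⟨p, hp, hpL⟩ := Nat.exists_prime_and_dvd hL1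
  have hp17 : p ≠ 17 := by
    rintro rfl
    exact h17 (hpL.trans hLd)
  rintro ⟨s, hs⟩
  have h1 : (17 ^ b * L).factorization p = (s * s).factorization p := by rw [hs]
  have hs0 : s ≠ 0 := by
    rintro rfl
    simp at hs
    exact hL0 hs
  rw [Nat.factorization_mul (by positivity) hL0, Nat.factorization_mul hs0 hs0,
    Nat.factorization_pow] at h1
  simp only [Finsupp.coe_add, Finsupp.coe_smul, Pi.add_apply, Pi.smul_apply, smul_eq_mul] at h1
  have h2 : Nat.factorization 17 p = 0 := by
    apply Nat.factorization_eq_zero_of_not_dvd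
    intro h3
    exact hp17 ((Nat.prime_dvd_prime_iff_eq hp (by norm_num)).1 h3)
  have h3 : L.factorization p = 1 := by
    have h4 := hLsq.natFactorization_le_one p
    have h5 : 0 < L.factorization p := hp.factorization_pos_of_dvd hL0 hpL
    omega
  rw [h2, h3] at h1
  omega

end general

end Vale.Agent.P014.FM
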