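import Mathlib
import Vale.Agent.P014.H580.K6

/-!
Tuples with a large coordinate linked to a small nontrivial coordinate, analytic part.
-/

namespace Vale.Agent.P014.FM

open Finset Function Vale.Agent.P014.H580 Vale.Agent.P014.H687.FM

/-- the character sum -/
noncomputable def SJ (a Q r j N : ℕ) : ℝ :=
  ∑ n ∈ (Icc 1 N).filter (fun n => Squarefree n ∧ n.Coprime r ∧ n.primeFactors.card = j),
    chi4 n ^ a * J n Q

/-- the character sum estimate -/
def CharB (X Y J0 : ℕ) (W M : ℝ) : Prop :=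
  ∀ a Q r j N : ℕ, a ≠ 0 → Odd Q → ¬ IsSquare Q → (4 * Q : ℝ) ≤ W → 1 ≤ r → r ≤ X → j ≤ J0 →
    Y ≤ N + 1 → N ≤ X → |SJ a Q r j N| ≤ N / M

lemma geom_le (n : ℕ) : ∑ j ∈ range n, ((1 : ℝ) / 4) ^ j ≤ 2 := by
  have h : ∀ n : ℕ, ∑ j ∈ range n, ((1 : ℝ) / 4) ^ j ≤ 4 / 3 - 4 / 3 * (1 / 4) ^ n := by
    intro n
    induction n with
    | zero => norm_num
    | succ n ih =>
      rw [Finset.sum_range_succ, pow_succ]
      have : (0 : ℝ) ≤ (1 / 4) ^ n := by positivity
      linarith
  have h1 := h n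
  have : (0 : ℝ) ≤ (1 / 4) ^ n := by positivity
  linarith

/-- splitting according to the number of prime factors -/
lemma split_sum (a Q r J0 N Y : ℕ) (hY : 1 ≤ Y) (hYN : Y ≤ N) :
    ∑ x ∈ Icc 1 N, (if x.primeFactors.card ≤ J0 then
        (if Y ≤ x then ((if Squarefree x ∧ Nat.Coprime x r then q4 x else 0) *
          (chi4 x ^ a * J x Q)) else 0) else 0)
      = ∑ j ∈ range (J0 + 1), ((1 : ℝ) / 4) ^ j * (SJ a Q r j N - SJ a Q r j (Y - 1)) := by
  have h1 : ∀ j, SJ a Q r j N - SJ a Q r j (Y - 1)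
      = ∑ x ∈ Icc 1 N, (if Y ≤ x then (if Squarefree x ∧ x.Coprime r ∧ x.primeFactors.card = j
          then chi4 x ^ a * J x Q else 0) else 0) := by
    intro j
    unfold SJ
    rw [Finset.sum_filter, Finset.sum_filter]
    have h2 : Icc 1 N = Icc 1 (Y - 1) ∪ Icc Y N := by
      ext x
      simp only [mem_union, mem_Icc]
      omega
    have hd : Disjoint (Icc 1 (Y - 1)) (Icc Y N) := by
      rw [Finset.disjoint_left]
      intro x hx hx'
      simp only [mem_Icc] at hx hx'
      omega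
    rw [h2, Finset.sum_union hd, Finset.sum_union hd, add_sub_cancel_left]
    have h3 : ∑ x ∈ Icc 1 (Y - 1), (if Y ≤ x then (if Squarefree x ∧ x.Coprime r ∧
        x.primeFactors.card = j then chi4 x ^ a * J x Q else 0) else 0) = 0 := by
      apply Finset.sum_eq_zero
      intro x hx
      rw [mem_Icc] at hx
      rw [if_neg (by omega)]
    rw [h3, zero_add]
    apply Finset.sum_congr rfl
    intro x hx
    rw [mem_Icc] at hx
    rw [if_pos hx.1]
  simp only [h1, Finset.mul_sum]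
  rw [Finset.sum_comm]
  apply Finset.sum_congr rfl
  intro x _
  by_cases hYx : Y ≤ x
  · simp only [if_pos hYx]
    by_cases hsq : Squarefree x ∧ x.Coprime r
    · rw [if_pos hsq]
      have h4 : ∀ j, (if Squarefree x ∧ x.Coprime r ∧ x.primeFactors.card = j
          then chi4 x ^ a * J x Q else 0) = if x.primeFactors.card = j then chi4 x ^ a * J x Q
            else 0 := by
        intro j
        by_cases hj : x.primeFactors.card = j
        · rw [if_pos ⟨hsq.1, hsq.2, hj⟩, if_pos hj]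
        · rw [if_neg (fun h => hj h.2.2), if_neg hj]
      simp only [h4, mul_ite, mul_zero]
      rw [Finset.sum_ite_eq]
      by_cases hJ : x.primeFactors.card ≤ J0
      · rw [if_pos hJ, if_pos (by rw [mem_range]; omega)]
        rfl
      · rw [if_neg hJ, if_neg (by rw [mem_range]; omega)]
    · have h4 : ∀ j, (if Squarefree x ∧ x.Coprime r ∧ x.primeFactors.card = j
          then chi4 x ^ a * J x Q else 0) = 0 := by
        intro j
        rw [if_neg (fun h => hsq ⟨h.1, h.2.1⟩)]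
      simp [h4, hsq]
  · simp [hYx]

section general

open Classical

variable {ι : Type*} [Fintype ι] [DecidableEq ι]

/-- truncation of the number of prime factors -/
noncomputable def tr (J0 x : ℕ) : ℝ := if x.primeFactors.card ≤ J0 then 1 else 0

/-- the inner sum -/
lemma S2_inner (a17 a4 : ι → ZMod 2) (P : ι → ι → ZMod 2) (hP : ∀ w, P w w = 0) (i j : ℕ)
    (hi : i ≠ 0) (hj : j ≠ 0) (X Y Z J0 : ℕ) (W M : ℝ) (hM : 0 < M) (hY : 2 ≤ Y) (hZ1 : 1 ≤ Z)
    (hZY : Z ≤ Y)
    (hW : (4 * (17 ^ (j + 1) * (Z : ℝ) ^ (Fintype.card ι))) ≤ W) (hB : CharB X Y J0 W M)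
    (V : Finset ι) (v : ι) (D : ι → ℕ) (hD : D ∈ TX ι X) (hDv : D v = 1) :
    |∑ x ∈ Icc 1 (X / ∏ u, D u), gG a17 a4 P i j (update D v x) *
      (HH P Z Y V v (update D v x) * tr J0 x)| ≤ 4 * X / M * (1 / ((∏ u, D u : ℕ) : ℝ)) := by
  rw [mem_TX] at hD
  obtain ⟨hD1, hD2⟩ := hD
  set r := ∏ u, D u with hr
  have hr1 : 1 ≤ r := one_le_prod hD1
  have hrR : (0 : ℝ) < r := by exact_mod_cast hr1
  have hnn : 0 ≤ 4 * X / M * (1 / (r : ℝ)) := by positivity
  have hzero : (∀ x ∈ Icc 1 (X / r), gG a17 a4 P i j (update D v x) *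
      (HH P Z Y V v (update D v x) * tr J0 x) = 0) →
      |∑ x ∈ Icc 1 (X / r), gG a17 a4 P i j (update D v x) *
      (HH P Z Y V v (update D v x) * tr J0 x)| ≤ 4 * X / M * (1 / (r : ℝ)) := by
    intro h
    rw [Finset.sum_eq_zero h, abs_zero]
    exact hnn
  -- degenerate cases
  by_cases hκ : HH P Z Y V v (update D v Y) = 0
  · apply hzero
    intro x _
    by_cases hx : Y ≤ x
    · rw [HH_upd P Z Y V v D hY hZY x hx, hκ]
      ring
    · rw [HH_small P Z Y V v D x hx]
      ring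
  by_cases hpw : pw i j r = 0
  · apply hzero
    intro x _
    have : gG a17 a4 P i j (update D v x) = 0 := by
      unfold gG
      rw [prod_upd D v x hDv, ← hr]
      by_cases hxr : Nat.Coprime x r
      · rw [pw_mul hxr, hpw]
        ring
      · rw [pw_not_sq]
        · ring
        · intro h3
          exact hxr (Nat.coprime_of_squarefree_mul h3)
    rw [this]
    ring
  have hodd : Odd r := by
    by_contra h
    exact hpw (pw_even hi h)
  have hsq : Squarefree r := by
    by_contra h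
    exact hpw (pw_not_sq h)
  have h17 : ¬ 17 ∣ r := by
    intro h
    apply hpw
    unfold pw
    rw [J_eq_zero (by norm_num), zero_pow hj, mul_zero]
    intro h2
    have := Nat.Coprime.eq_one_of_dvd h2.symm h
    omega
  obtain ⟨hlt, hex⟩ := HH_ne P Z Y V v D hZY hκ
  obtain ⟨c, hc, a, ha, hone⟩ := one_var a17 a4 P hP i j hi v D hDv hodd
  rw [← hr] at hone
  set b := j + (if a17 v = 1 then 1 else 0) with hb
  set Q := 17 ^ b * lprod P v D with hQ
  set N := X / r with hN
  by_cases hYN : Y ≤ N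
  swap
  · apply hzero
    intro x hx
    rw [mem_Icc] at hx
    rw [HH_small P Z Y V v D x (by omega)]
    ring
  have hQodd : Odd Q := by
    rw [hQ, Nat.odd_mul]
    refine ⟨Odd.pow (by decide), ?_⟩
    obtain ⟨k, hk⟩ := lprod_dvd P v D
    rw [← hr] at hk
    rw [hk, Nat.odd_mul] at hodd
    exact hodd.1
  have hQns : ¬ IsSquare Q := mod_nonsq P v D hsq h17 hex b
  have hQW : (4 * Q : ℝ) ≤ W := by
    refine le_trans ?_ hW
    have h1 : (lprod P v D : ℝ) ≤ (Z : ℝ) ^ (Fintype.card ι) := by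
      exact_mod_cast lprod_le P v D Z hZ1 hlt
    have h2 : (17 : ℝ) ^ b ≤ 17 ^ (j + 1) := by
      apply pow_le_pow_right₀ (by norm_num)
      rw [hb]
      split_ifs <;> omega
    rw [hQ]
    push_cast
    gcongr
  have hterm : ∑ x ∈ Icc 1 N, gG a17 a4 P i j (update D v x) *
      (HH P Z Y V v (update D v x) * tr J0 x)
      = c * HH P Z Y V v (update D v Y) * ∑ x ∈ Icc 1 N, (if x.primeFactors.card ≤ J0 then
        (if Y ≤ x then ((if Squarefree x ∧ Nat.Coprime x r then q4 x else 0) *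
          (chi4 x ^ a * J x Q)) else 0) else 0) := by
    rw [Finset.mul_sum]
    apply Finset.sum_congr rfl
    intro x _
    rw [hone x]
    unfold tr
    by_cases hJ : x.primeFactors.card ≤ J0
    · by_cases hYx : Y ≤ x
      · rw [if_pos hJ, if_pos hJ, if_pos hYx, HH_upd P Z Y V v D hY hZY x hYx]
        ring
      · rw [if_pos hJ, if_pos hJ, if_neg hYx, HH_small P Z Y V v D x hYx]
        ring
    · rw [if_neg hJ, if_neg hJ]
      ring
  rw [hterm, split_sum a Q r J0 N Y (by omega) hYN, abs_mul, abs_mul]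
  have hNX : N ≤ X := Nat.div_le_self _ _
  have hNR : (N : ℝ) ≤ X / r := Nat.cast_div_le
  have h3 : |∑ j ∈ range (J0 + 1), ((1 : ℝ) / 4) ^ j * (SJ a Q r j N - SJ a Q r j (Y - 1))|
      ≤ 4 * X / M * (1 / (r : ℝ)) := by
    refine (Finset.abs_sum_le_sum_abs _ _).trans ?_
    have h4 : ∀ j ∈ range (J0 + 1), |((1 : ℝ) / 4) ^ j * (SJ a Q r j N - SJ a Q r j (Y - 1))|
        ≤ (1 / 4) ^ j * (2 * (X / r) / M) := by
      intro j hj
      rw [mem_range] at hj
      rw [abs_mul, abs_of_nonneg (by positivity : (0 : ℝ) ≤ (1 / 4) ^ j)]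
      apply mul_le_mul_of_nonneg_left _ (by positivity)
      have h5 := hB a Q r j N ha hQodd hQns hQW hr1 hD2 (by omega) (by omega) hNX
      have h6 := hB a Q r j (Y - 1) ha hQodd hQns hQW hr1 hD2 (by omega) (by omega) (by omega)
      have h7 : ((Y - 1 : ℕ) : ℝ) / M ≤ (X / r) / M := by
        have : ((Y - 1 : ℕ) : ℝ) ≤ N := by exact_mod_cast (by omega : Y - 1 ≤ N)
        have h8 := this.trans hNR
        gcongr
      have h8 : (N : ℝ) / M ≤ (X / r) / M := by gcongr
      refine (abs_sub _ _).trans ?_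
      have : 2 * ((X : ℝ) / r) / M = (X / r) / M + (X / r) / M := by ring
      rw [this]
      linarith
    refine (Finset.sum_le_sum h4).trans ?_
    rw [← Finset.sum_mul]
    have h5 := geom_le (J0 + 1)
    calc (∑ j ∈ range (J0 + 1), ((1 : ℝ) / 4) ^ j) * (2 * ((X : ℝ) / r) / M)
        ≤ 2 * (2 * ((X : ℝ) / r) / M) := by gcongr
      _ = 4 * X / M * (1 / (r : ℝ)) := by ring
  have h4 : |c| * |HH P Z Y V v (update D v Y)| ≤ 1 :=
    mul_le_one₀ hc (abs_nonneg _) (HH_abs P Z Y V v _)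
  calc |c| * |HH P Z Y V v (update D v Y)| *
        |∑ j ∈ range (J0 + 1), ((1 : ℝ) / 4) ^ j * (SJ a Q r j N - SJ a Q r j (Y - 1))|
      ≤ 1 * |∑ j ∈ range (J0 + 1), ((1 : ℝ) / 4) ^ j * (SJ a Q r j N - SJ a Q r j (Y - 1))| := by
        gcongr
    _ ≤ _ := by rw [one_mul]; exact h3

/-- the tail over many prime factors -/
noncomputable def tailS (ι : Type*) [Fintype ι] [DecidableEq ι] (X J0 : ℕ) : ℝ :=
  ∑ D ∈ (TX ι X).filter (fun D => J0 < (∏ u, D u).primeFactors.card), sqh q4 D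

/-- one coordinate -/
lemma S2_one (a17 a4 : ι → ZMod 2) (P : ι → ι → ZMod 2) (hP : ∀ w, P w w = 0) (i j : ℕ)
    (hi : i ≠ 0) (hj : j ≠ 0) (X Y Z J0 : ℕ) (W M : ℝ) (hM : 0 < M) (hY : 2 ≤ Y) (hZ1 : 1 ≤ Z)
    (hZY : Z ≤ Y)
    (hW : (4 * (17 ^ (j + 1) * (Z : ℝ) ^ (Fintype.card ι))) ≤ W) (hB : CharB X Y J0 W M)
    (V : Finset ι) (v : ι) :
    |∑ D ∈ TX ι X, gG a17 a4 P i j D * HH P Z Y V v D|
      ≤ 4 * X / M * (1 + Real.log X) ^ (Fintype.card ι) + tailS ι X J0 := by
  have hsplit : ∑ D ∈ TX ι X, gG a17 a4 P i j D * HH P Z Y V v D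
      = ∑ D ∈ TX ι X, gG a17 a4 P i j D * (HH P Z Y V v D * tr J0 (D v))
        + ∑ D ∈ TX ι X, gG a17 a4 P i j D * (HH P Z Y V v D * (1 - tr J0 (D v))) := by
    rw [← Finset.sum_add_distrib]
    apply Finset.sum_congr rfl
    intro D _
    ring
  rw [hsplit]
  refine (abs_add_le _ _).trans (add_le_add ?_ ?_)
  · rw [sum_fibT X v]
    refine (Finset.abs_sum_le_sum_abs _ _).trans ?_
    have h1 : ∀ D ∈ (TX ι X).filter (fun D => D v = 1),
        |∑ x ∈ Icc 1 (X / ∏ u, D u), gG a17 a4 P i j (update D v x) *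
          (HH P Z Y V v (update D v x) * tr J0 (update D v x v))|
        ≤ 4 * X / M * (1 / ((∏ u, D u : ℕ) : ℝ)) := by
      intro D hD
      rw [Finset.mem_filter] at hD
      have := S2_inner a17 a4 P hP i j hi hj X Y Z J0 W M hM hY hZ1 hZY hW hB V v D hD.1 hD.2
      simpa only [update_self] using this
    refine (Finset.sum_le_sum h1).trans ?_
    rw [← Finset.mul_sum]
    apply mul_le_mul_of_nonneg_left _ (by positivity)
    refine le_trans ?_ (sum_recipT (ι := ι) X)
    apply Finset.sum_le_sum_of_subset_of_nonneg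
    · exact Finset.filter_subset _ _
    · intro D _ _
      positivity
  · refine (Finset.abs_sum_le_sum_abs _ _).trans ?_
    unfold tailS
    rw [Finset.sum_filter]
    apply Finset.sum_le_sum
    intro D hD
    rw [mem_TX] at hD
    by_cases hJ : J0 < (∏ u, D u).primeFactors.card
    · rw [if_pos hJ, abs_mul]
      have h1 := gG_abs a17 a4 P i j D
      have h2 : |HH P Z Y V v D * (1 - tr J0 (D v))| ≤ 1 := by
        rw [abs_mul]
        refine mul_le_one₀ (HH_abs _ _ _ _ _ _) (abs_nonneg _) ?_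
        unfold tr
        split_ifs <;> simp
      calc |gG a17 a4 P i j D| * |HH P Z Y V v D * (1 - tr J0 (D v))|
          ≤ sqh q4 D * 1 := mul_le_mul h1 h2 (abs_nonneg _) (sqh_nonneg _ q4_nonneg _)
        _ = sqh q4 D := mul_one _
    · rw [if_neg hJ]
      have h1 : tr J0 (D v) = 1 := by
        unfold tr
        rw [if_pos]
        have h2 : (D v).primeFactors ⊆ (∏ u, D u).primeFactors :=
          Nat.primeFactors_mono (Finset.dvd_prod_of_mem _ (Finset.mem_univ v))
            (by have := one_le_prod hD.1; omega)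
        have := Finset.card_le_card h2
        omega
      rw [h1]
      simp

/-- all coordinates -/
theorem S2 (a17 a4 : ι → ZMod 2) (P : ι → ι → ZMod 2) (hP : ∀ w, P w w = 0) (i j : ℕ)
    (hi : i ≠ 0) (hj : j ≠ 0) (X Y Z J0 : ℕ) (W M : ℝ) (hM : 0 < M) (hY : 2 ≤ Y) (hZ1 : 1 ≤ Z)
    (hZY : Z ≤ Y)
    (hW : (4 * (17 ^ (j + 1) * (Z : ℝ) ^ (Fintype.card ι))) ≤ W) (hB : CharB X Y J0 W M)
    (V : Finset ι) :
    |∑ D ∈ TX ι X, gG a17 a4 P i j D * NQ Z (allP P) D
        - ∑ D ∈ TX ι X, gG a17 a4 P i j D * (NQ Z (allP P) D * MV P Y V D)|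
      ≤ V.card * (4 * X / M * (1 + Real.log X) ^ (Fintype.card ι) + tailS ι X J0) := by
  induction V using Finset.induction_on with
  | empty => simp [MV]
  | insert v V hv ih =>
    have h3 := S2_one a17 a4 P hP i j hi hj X Y Z J0 W M hM hY hZ1 hZY hW hB V v
    have h4 : ∑ D ∈ TX ι X, gG a17 a4 P i j D * (NQ Z (allP P) D * MV P Y (insert v V) D)
        = ∑ D ∈ TX ι X, gG a17 a4 P i j D * (NQ Z (allP P) D * MV P Y V D)
          - ∑ D ∈ TX ι X, gG a17 a4 P i j D * HH P Z Y V v D := by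
      rw [← Finset.sum_sub_distrib]
      apply Finset.sum_congr rfl
      intro D _
      have : MV P Y (insert v V) D = (1 - Cv P Y v D) * MV P Y V D := by
        unfold MV
        rw [Finset.prod_insert hv]
      rw [this]
      unfold HH
      ring
    rw [h4, Finset.card_insert_of_notMem hv]
    push_cast
    have h5 : ∑ D ∈ TX ι X, gG a17 a4 P i j D * NQ Z (allP P) D -
        (∑ D ∈ TX ι X, gG a17 a4 P i j D * (NQ Z (allP P) D * MV P Y V D)
          - ∑ D ∈ TX ι X, gG a17 a4 P i j D * HH P Z Y V v D)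
        = (∑ D ∈ TX ι X, gG a17 a4 P i j D * NQ Z (allP P) D
          - ∑ D ∈ TX ι X, gG a17 a4 P i j D * (NQ Z (allP P) D * MV P Y V D))
          + ∑ D ∈ TX ι X, gG a17 a4 P i j D * HH P Z Y V v D := by ring
    rw [h5]
    refine (abs_add_le _ _).trans ?_
    linarith

end general

end Vale.Agent.P014.FM
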