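import Mathlib
import Vale.Agent.P014.H580.K7

/-!
Maximal unlinked sets.
-/

namespace Vale.Agent.P014.FM

open Finset Function Vale.Agent.P014.H580 Vale.Agent.P014.H687.FM

/-- the quadratic form of the linking relation -/
def qf (w : Idx) : ZMod 2 := w.1.1 * w.2.2 + w.2.1 * w.1.2

lemma Phi_self (u : Idx) : Phi u u = 0 := by
  revert u
  decide

lemma Phi_add (u v : Idx) : Phi u v + Phi v u = qf (u + v) := by
  obtain ⟨⟨a, b⟩, c, d⟩ := u
  obtain ⟨⟨a', b'⟩, c', d'⟩ := v
  simp only [Phi, qf, Prod.mk_add_mk]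
  ring

lemma Phi_eq_iff (u v : Idx) : Phi u v = Phi v u ↔ qf (u + v) = 0 := by
  rw [← Phi_add]
  generalize Phi u v = a
  generalize Phi v u = b
  revert a b
  decide

/-- boolean form of the hypotheses of the next lemma -/
def okb (b c d : Idx) : Bool :=
  (b != 0) && (qf b == 0) && (c != 0) && (c != b) && (qf c == 0) && (qf (b + c) == 0) &&
    (d != 0) && (d != b) && (d != c) && (qf d == 0) && (qf (b + d) == 0) && (qf (c + d) == 0)

lemma okb_fact : ∀ b c d : Idx, okb b c d = true → d = b + c := by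
  decide +kernel

lemma qf_fact0 (b c d : Idx) (h : b ≠ 0 ∧ qf b = 0 ∧ c ≠ 0 ∧ c ≠ b ∧ qf c = 0 ∧ qf (b + c) = 0 ∧
    d ≠ 0 ∧ d ≠ b ∧ d ≠ c ∧ qf d = 0 ∧ qf (b + d) = 0 ∧ qf (c + d) = 0) : d = b + c := by
  apply okb_fact
  obtain ⟨h1, h2, h3, h4, h5, h6, h7, h8, h9, h10, h11, h12⟩ := h
  unfold okb
  simp [h1, h2, h3, h4, h5, h6, h7, h8, h9, h10, h11, h12]

lemma qf_fact (b : Idx) (hb : b ≠ 0 ∧ qf b = 0)
    (c : Idx) (hc : c ≠ 0 ∧ c ≠ b ∧ qf c = 0 ∧ qf (b + c) = 0)
    (d : Idx) (hd : d ≠ 0 ∧ d ≠ b ∧ d ≠ c ∧ qf d = 0 ∧ qf (b + d) = 0 ∧ qf (c + d) = 0)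
    (w : Idx) (hw : w ≠ 0 ∧ w ≠ b ∧ w ≠ c ∧ w ≠ d ∧ qf w = 0 ∧ qf (b + w) = 0 ∧ qf (c + w) = 0 ∧
      qf (d + w) = 0) : False := by
  have h1 := qf_fact0 b c d ⟨hb.1, hb.2, hc.1, hc.2.1, hc.2.2.1, hc.2.2.2, hd⟩
  have h2 := qf_fact0 b c w ⟨hb.1, hb.2, hc.1, hc.2.1, hc.2.2.1, hc.2.2.2, hw.1, hw.2.1, hw.2.2.1,
    hw.2.2.2.2.1, hw.2.2.2.2.2.1, hw.2.2.2.2.2.2.1⟩
  exact hw.2.2.2.1 (h2.trans h1.symm)

lemma four_fact (a b c d w : Idx) (h1 : b ≠ a) (h2 : c ≠ a) (h3 : d ≠ a) (h4 : c ≠ b) (h5 : d ≠ b)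
    (h6 : d ≠ c) (hab : Phi a b = Phi b a) (hac : Phi a c = Phi c a) (had : Phi a d = Phi d a)
    (hbc : Phi b c = Phi c b) (hbd : Phi b d = Phi d b) (hcd : Phi c d = Phi d c)
    (ha : w ≠ a) (hb : w ≠ b) (hc : w ≠ c) (hd : w ≠ d)
    (haw : Phi a w = Phi w a) (hbw : Phi b w = Phi w b) (hcw : Phi c w = Phi w c)
    (hdw : Phi d w = Phi w d) : False := by
  rw [Phi_eq_iff] at *
  have hsub : ∀ x y z : Idx, (x + y) + (x + z) = y + z := by
    intro x y z
    have hx : x + x = 0 := by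
      obtain ⟨⟨p, q⟩, r, s⟩ := x
      have h : ∀ t : ZMod 2, t + t = 0 := by decide
      simp only [Prod.mk_add_mk, h]
      rfl
    calc (x + y) + (x + z) = (x + x) + (y + z) := by abel
      _ = y + z := by rw [hx, zero_add]
  have hne : ∀ x y : Idx, x ≠ y → y + x ≠ 0 := by
    intro x y hxy h
    apply hxy
    have hy : y + y = 0 := by
      obtain ⟨⟨p, q⟩, r, s⟩ := y
      have h : ∀ t : ZMod 2, t + t = 0 := by decide
      simp only [Prod.mk_add_mk, h]
      rfl
    have : y + x = y + y := by rw [h, hy]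
    exact add_left_cancel this
  have hne2 : ∀ x y : Idx, x ≠ y → a + x ≠ a + y := by
    intro x y hxy h
    exact hxy (add_left_cancel h)
  refine qf_fact (a + b) ⟨hne _ _ h1, hab⟩ (a + c) ⟨hne _ _ h2, hne2 _ _ h4, hac, ?_⟩ (a + d)
    ⟨hne _ _ h3, hne2 _ _ h5, hne2 _ _ h6, had, ?_, ?_⟩ (a + w) ⟨hne _ _ ha, hne2 _ _ hb,
    hne2 _ _ hc, hne2 _ _ hd, haw, ?_, ?_, ?_⟩
  · rw [hsub]; exact hbc
  · rw [hsub]; exact hbd
  · rw [hsub]; exact hcd
  · rw [hsub]; exact hbw
  · rw [hsub]; exact hcw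
  · rw [hsub]; exact hdw

lemma mem_Us {U : Finset Idx} : U ∈ Us ↔ U.card = 4 ∧ ∀ u ∈ U, ∀ v ∈ U, Phi u v = Phi v u := by
  unfold Us
  rw [Finset.mem_filter, Finset.mem_powersetCard]
  constructor
  · rintro ⟨⟨_, h⟩, h2⟩
    exact ⟨h, h2⟩
  · rintro ⟨h, h2⟩
    exact ⟨⟨Finset.subset_univ _, h⟩, h2⟩

/-- maximality -/
lemma Us_max {U : Finset Idx} (hU : U ∈ Us) {w : Idx} (hw : w ∉ U) :
    ∃ u ∈ U, Phi u w ≠ Phi w u := by
  rw [mem_Us] at hU
  obtain ⟨h4, hun⟩ := hU
  by_contra hcon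
  push Not at hcon
  obtain ⟨a, T, haT, rfl, hT⟩ := Finset.card_eq_succ.1 h4
  obtain ⟨b, c, d, hbc, hbd, hcd, rfl⟩ := Finset.card_eq_three.1 hT
  simp only [Finset.mem_insert, Finset.mem_singleton, not_or] at haT hw hcon hun
  exact four_fact a b c d w (Ne.symm haT.1) (Ne.symm haT.2.1) (Ne.symm haT.2.2) hbc.symm hbd.symm
    hcd.symm (hun a (by simp) b (by simp)) (hun a (by simp) c (by simp)) (hun a (by simp) d (by simp))
    (hun b (by simp) c (by simp)) (hun b (by simp) d (by simp)) (hun c (by simp) d (by simp))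
    hw.1 hw.2.1 hw.2.2.1 hw.2.2.2
    (hcon a (by simp)) (hcon b (by simp)) (hcon c (by simp)) (hcon d (by simp))

open Classical in
/-- the number of maximal unlinked sets containing the support -/
noncomputable def mU (D : Idx → ℕ) : ℝ := ∑ U ∈ Us, if (∀ u, u ∉ U → D u = 1) then 1 else 0

lemma mU_nonneg (D : Idx → ℕ) : 0 ≤ mU D := by
  unfold mU
  apply Finset.sum_nonneg
  intro U _
  split_ifs <;> simp

lemma mU_le (D : Idx → ℕ) : mU D ≤ Us.card := by
  unfold mU
  calc ∑ U ∈ Us, (if (∀ u, u ∉ U → D u = 1) then (1 : ℝ) else 0) ≤ ∑ _U ∈ Us, (1 : ℝ) := by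
        apply Finset.sum_le_sum
        intro U _
        split_ifs <;> simp
    _ = Us.card := by simp

/-- four large coordinates -/
lemma m_eq (Z Y : ℕ) (hZ : 2 ≤ Z) (hZY : Z ≤ Y) (D : Idx → ℕ) (hD : ∀ u, 1 ≤ D u)
    (h4 : 3 < (Lg Y D).card) :
    NQ Z (allP Phi) D * MV Phi Y univ D = mU D := by
  have hmemL : ∀ u, u ∈ Lg Y D ↔ Y ≤ D u := by
    intro u
    unfold Lg
    rw [Finset.mem_filter]
    exact ⟨fun h => h.2, fun h => ⟨Finset.mem_univ _, h⟩⟩
  by_cases hex : ∃ U ∈ Us, ∀ u, u ∉ U → D u = 1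
  · obtain ⟨U, hU, hsupp⟩ := hex
    have key : ∀ U' ∈ Us, (∀ u, u ∉ U' → D u = 1) → U' = Lg Y D := by
      intro U' hU' hs
      symm
      apply Finset.eq_of_subset_of_card_le
      · intro u hu
        by_contra hcon
        have h1 := hs u hcon
        have h2 := (hmemL u).1 hu
        omega
      · have := (mem_Us.1 hU').1
        omega
    have hULg := key U hU hsupp
    have hsum : mU D = 1 := by
      unfold mU
      rw [Finset.sum_eq_single U]
      · rw [if_pos hsupp]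
      · intro U' hU' hne
        rw [if_neg]
        intro hs
        exact hne ((key U' hU' hs).trans hULg.symm)
      · intro h
        exact absurd hU h
    have hun := (mem_Us.1 hU).2
    have hNQ : NQ Z (allP Phi) D = 1 := by
      unfold NQ
      apply Finset.prod_eq_one
      rintro ⟨s, t⟩ hst
      unfold allP at hst
      rw [Finset.mem_filter] at hst
      have h1 := hst.2
      simp only at h1
      unfold bd
      rw [if_neg]
      · ring
      · rintro ⟨hs, ht⟩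
        have hsU : s ∈ U := by
          by_contra hcon
          have := hsupp s hcon
          simp only at hs
          omega
        have htU : t ∈ U := by
          by_contra hcon
          have := hsupp t hcon
          simp only at ht
          omega
        have h2 := hun s hsU t htU
        rw [h1.1] at h2
        exact h1.2 h2.symm
    have hMV : MV Phi Y univ D = 1 := by
      unfold MV
      apply Finset.prod_eq_one
      intro v _
      unfold Cv
      rw [if_neg]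
      · ring
      · rintro ⟨hv, w, hw1, hw2⟩
        have hvU : v ∈ U := by
          by_contra hcon
          have := hsupp v hcon
          omega
        have hwU : w ∈ U := by
          by_contra hcon
          have := hsupp w hcon
          omega
        exact hw1 (hun v hvU w hwU)
    rw [hNQ, hMV, hsum]
    ring
  · have hsum : mU D = 0 := by
      unfold mU
      apply Finset.sum_eq_zero
      intro U hU
      rw [if_neg]
      intro hs
      exact hex ⟨U, hU, hs⟩
    rw [hsum]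
    by_contra hcon
    have hMV : MV Phi Y univ D ≠ 0 := right_ne_zero_of_mul hcon
    have hC : ∀ v, ¬ (Y ≤ D v ∧ ∃ w, Phi v w ≠ Phi w v ∧ 1 < D w) := by
      intro v hv
      apply hMV
      unfold MV
      apply Finset.prod_eq_zero (Finset.mem_univ v)
      unfold Cv
      rw [if_pos hv]
      ring
    obtain ⟨U, hUsub, hUcard⟩ := Finset.exists_subset_card_eq (show 4 ≤ (Lg Y D).card by omega)
    have hUUs : U ∈ Us := by
      rw [mem_Us]
      refine ⟨hUcard, ?_⟩
      intro u hu v hv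
      by_contra hne
      have h1 := (hmemL u).1 (hUsub hu)
      have h2 := (hmemL v).1 (hUsub hv)
      exact hC u ⟨h1, v, hne, by omega⟩
    apply hex
    refine ⟨U, hUUs, ?_⟩
    intro w hw
    obtain ⟨u, hu, hne⟩ := Us_max hUUs hw
    have h1 := (hmemL u).1 (hUsub hu)
    have h2 := hC u
    by_contra h3
    have h4 := hD w
    exact h2 ⟨h1, w, hne, by omega⟩

/-- the third step -/
lemma S3 (i j X Y Z : ℕ) (hZ : 2 ≤ Z) (hZY : Z ≤ Y) :
    |∑ D ∈ TX Idx X, gG e17 e4 Phi i j D * (NQ Z (allP Phi) D * MV Phi Y univ D)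
        - ∑ D ∈ TX Idx X, gG e17 e4 Phi i j D * mU D|
      ≤ (1 + Us.card) * ∑ D ∈ (TX Idx X).filter (fun D => (Lg Y D).card ≤ 3), sqh q4 D := by
  rw [← Finset.sum_sub_distrib]
  refine (Finset.abs_sum_le_sum_abs _ _).trans ?_
  rw [Finset.sum_filter, Finset.mul_sum]
  apply Finset.sum_le_sum
  intro D hD
  rw [mem_TX] at hD
  by_cases h : (Lg Y D).card ≤ 3
  · rw [if_pos h, ← mul_sub, abs_mul]
    have h1 := gG_abs e17 e4 Phi i j D
    have h2 : |NQ Z (allP Phi) D * MV Phi Y univ D - mU D| ≤ 1 + Us.card := by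
      have h3 : |NQ Z (allP Phi) D * MV Phi Y univ D| ≤ 1 := by
        rcases NQ_cases Z (allP Phi) D with h | h <;> rcases MV_cases Phi Y univ D with h' | h' <;>
          rw [h, h'] <;> simp
      have h4 : |mU D| ≤ Us.card := by
        rw [abs_of_nonneg (mU_nonneg D)]
        exact mU_le D
      exact (abs_sub _ _).trans (add_le_add h3 h4)
    calc |gG e17 e4 Phi i j D| * |NQ Z (allP Phi) D * MV Phi Y univ D - mU D|
        ≤ sqh q4 D * (1 + Us.card) :=
          mul_le_mul h1 h2 (abs_nonneg _) (sqh_nonneg _ q4_nonneg _)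
      _ = _ := mul_comm _ _
  · rw [if_neg h, m_eq Z Y hZ hZY D hD.1 (by omega)]
    simp

end Vale.Agent.P014.FM
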