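import Mathlib
import Vale.Agent.P014.H580.K8
import Vale.Agent.P014.H687.NPC

/-!
The choice of the parameters.
-/

namespace Vale.Agent.P014.FM

open Finset Function Vale.Agent.P014.H580 Vale.Agent.P014.H687.FM

/-- the character sum estimate from Siegel-Walfisz -/
lemma charB (hsw : SW) (K η : ℝ) (hK : 1 ≤ K) (hη : 0 < η) : ∃ X₀ : ℝ, ∀ X Y J0 : ℕ, X₀ ≤ X →
    3 ≤ X → Real.exp ((Real.log X) ^ η) + 1 ≤ Y → (J0 : ℝ) ≤ K * Real.log (Real.log X) →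
    CharB X Y J0 ((Real.log X) ^ K) ((Real.log X) ^ K) := by
  obtain ⟨X₀, h⟩ := fm3 hsw K η hK hη
  refine ⟨X₀, ?_⟩
  intro X Y J0 hX hX3 hY hJ0 a Q r j N ha hQo hQs hQW hr hrX hj hYN hNX
  have hX1 : (1 : ℝ) ≤ X := by exact_mod_cast (by omega : 1 ≤ X)
  have hXK : (X : ℝ) ≤ (X : ℝ) ^ K := by
    calc (X : ℝ) = (X : ℝ) ^ (1 : ℝ) := (Real.rpow_one _).symm
      _ ≤ (X : ℝ) ^ K := Real.rpow_le_rpow_of_exponent_le hX1 hK
  have hNR : (N : ℝ) ≤ X := by exact_mod_cast hNX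
  have hrR : (r : ℝ) ≤ X := by exact_mod_cast hrX
  have hjR : (j : ℝ) ≤ J0 := by exact_mod_cast hj
  have hYR : (Y : ℝ) ≤ N + 1 := by exact_mod_cast hYN
  have h1 := h X hX (4 * Q) (fun m => ((chi4 m ^ a * J m Q : ℝ) : ℂ)) (by push_cast; exact hQW)
    (npchar_J hQo hQs (by omega)) r hr (hrR.trans hXK) j (hjR.trans hJ0) N (by linarith)
    (hNR.trans hXK)
  rw [Nat.floor_natCast] at h1
  rw [← Complex.ofReal_sum, Complex.norm_real, Real.norm_eq_abs] at h1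
  exact h1

/-- the numerical facts needed -/
structure Num (L : ℝ) : Prop where
  big : 10000 ≤ L
  exp : L * (L ^ 18) ^ 32 ≤ Real.exp (L ^ ((1 : ℝ) / 100))

lemma num_ev : ∀ᶠ L : ℝ in Filter.atTop, Num L := by
  have h := eventually_log_rpow_le 1 577 (1 / 100) (by norm_num)
  filter_upwards [h, Filter.eventually_ge_atTop 10000] with L h1 h2
  refine ⟨h2, ?_⟩
  rw [Real.rpow_one] at h1
  have h3 : L * (L ^ 18) ^ 32 = Real.exp (577 * Real.log L) := by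
    have e1 : L * (L ^ 18) ^ 32 = L ^ (577 : ℕ) := by
      rw [← pow_mul, ← pow_succ']
    rw [e1, mul_comm, Real.exp_mul, Real.exp_log (by linarith)]
    norm_cast
  rw [h3]
  exact Real.exp_le_exp.2 h1

lemma pow_fact (L : ℝ) (hL : 10000 ≤ L) (n : ℕ) (K : ℝ) (h : ((n + 3 : ℕ) : ℝ) ≤ K) :
    (4 * 17 ^ 3 * 2 ^ 16) * L ^ n ≤ L ^ K := by
  have hL0 : 0 < L := by linarith
  calc (4 * 17 ^ 3 * 2 ^ 16) * L ^ n ≤ L ^ 3 * L ^ n := by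
        gcongr
        calc (4 * 17 ^ 3 * 2 ^ 16 : ℝ) ≤ 10000 ^ 3 := by norm_num
          _ ≤ L ^ 3 := by gcongr
    _ = L ^ (n + 3) := by rw [← pow_add, add_comm]
    _ = L ^ (((n + 3 : ℕ)) : ℝ) := (Real.rpow_natCast _ _).symm
    _ ≤ L ^ K := Real.rpow_le_rpow_of_exponent_le (by linarith) h

lemma pow_fact2 (L : ℝ) (hL : 10000 ≤ L) (n : ℕ) (K : ℝ) (h : (n : ℝ) ≤ K) :
    L ^ n ≤ L ^ K := by
  calc L ^ n = L ^ (n : ℝ) := (Real.rpow_natCast _ _).symm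
    _ ≤ L ^ K := Real.rpow_le_rpow_of_exponent_le (by linarith) h

/-- the parameters -/
structure Par (X : ℕ) (L e K : ℝ) (Z Y J0 : ℕ) : Prop where
  hX : 9 ≤ X
  hL : Real.log X = L
  big : 10000 ≤ L
  he : e = L ^ ((1 : ℝ) / 100)
  Z1 : (L ^ 18) ^ 32 ≤ Z
  Z2 : 2 ≤ Z
  ZY : Z ≤ Y
  Ylow : Real.exp e + 1 ≤ Y
  Yup : Real.log Y ≤ 2 + e
  YX : (Y ^ 16) ^ 2 ≤ X
  J1 : (J0 : ℝ) ≤ K * Real.log L
  J2 : 20 * Real.log L ≤ J0 + 1
  W : 4 * (17 ^ 3 * (Z : ℝ) ^ 16) ≤ L ^ K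
  M : L ^ 17 ≤ L ^ K

lemma par_ex : ∃ X₀ : ℝ, ∀ X : ℕ, X₀ ≤ X → ∃ L e : ℝ, ∃ Z Y J0 : ℕ, Par X L e 10000 Z Y J0 := by
  obtain ⟨L₀, hL₀⟩ := Filter.eventually_atTop.1 num_ev
  refine ⟨max (Real.exp L₀) 9, ?_⟩
  intro X hX
  have hX2 : Real.exp L₀ ≤ X := (le_max_left _ _).trans hX
  have hX9 : (9 : ℝ) ≤ X := (le_max_right _ _).trans hX
  have hX9' : 9 ≤ X := by exact_mod_cast hX9
  have hXpos : (0 : ℝ) < X := by linarith
  obtain ⟨L, hL⟩ : ∃ L, Real.log X = L := ⟨_, rfl⟩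
  have hLL : L₀ ≤ L := by rw [← hL, Real.le_log_iff_exp_le hXpos]; exact hX2
  obtain ⟨hbig, hexp⟩ := hL₀ L hLL
  have hL0 : 0 < L := by linarith
  have hL1 : 1 ≤ L := by linarith
  obtain ⟨A, hA⟩ : ∃ A, (L ^ 18) ^ 32 = A := ⟨_, rfl⟩
  have hAL : L ≤ A := by
    rw [← hA, ← pow_mul]
    exact le_self_pow₀ hL1 (by norm_num)
  obtain ⟨e, he⟩ : ∃ e, e = L ^ ((1 : ℝ) / 100) := ⟨_, rfl⟩
  rw [← he, hA] at hexp
  have he1 : 1 ≤ e := by rw [he]; exact Real.one_le_rpow hL1 (by norm_num)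
  refine ⟨L, e, ⌈A⌉₊, ⌈Real.exp e⌉₊ + 1, ⌊20 * Real.log L⌋₊, ?_⟩
  have hZ1 : A ≤ (⌈A⌉₊ : ℝ) := Nat.le_ceil _
  have hZ2 : (⌈A⌉₊ : ℝ) ≤ 2 * A := by
    have := (Nat.ceil_lt_add_one (by linarith : 0 ≤ A)).le
    linarith
  have hY1 : Real.exp e ≤ (⌈Real.exp e⌉₊ : ℝ) := Nat.le_ceil _
  have hYup : ((⌈Real.exp e⌉₊ + 1 : ℕ) : ℝ) ≤ 3 * Real.exp e := by
    have h1 := (Nat.ceil_lt_add_one (Real.exp_pos e).le).le
    have h2 : 1 ≤ Real.exp e := Real.one_le_exp (by linarith)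
    push_cast
    linarith
  have hlog3 : Real.log 3 ≤ 2 := by
    rw [Real.log_le_iff_le_exp (by norm_num)]
    have := Real.add_one_le_exp (2 : ℝ)
    linarith
  have hYpos : (0 : ℝ) < ((⌈Real.exp e⌉₊ + 1 : ℕ) : ℝ) := by positivity
  have hlogY : Real.log ((⌈Real.exp e⌉₊ + 1 : ℕ) : ℝ) ≤ 2 + e := by
    calc Real.log ((⌈Real.exp e⌉₊ + 1 : ℕ) : ℝ) ≤ Real.log (3 * Real.exp e) :=
          Real.log_le_log hYpos hYup
      _ = Real.log 3 + e := by rw [Real.log_mul (by norm_num) (Real.exp_pos e).ne', Real.log_exp]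
      _ ≤ 2 + e := by linarith
  have hlogL : 0 ≤ Real.log L := Real.log_nonneg hL1
  refine ⟨hX9', hL, hbig, he, by rw [hA]; exact hZ1, ?_, ?_, ?_, hlogY, ?_, ?_, ?_, ?_, ?_⟩
  · have : (2 : ℝ) ≤ (⌈A⌉₊ : ℝ) := by linarith
    exact_mod_cast this
  · have h1 : (⌈A⌉₊ : ℝ) ≤ ((⌈Real.exp e⌉₊ + 1 : ℕ) : ℝ) := by
      calc (⌈A⌉₊ : ℝ) ≤ 2 * A := hZ2
        _ ≤ L * A := mul_le_mul_of_nonneg_right (by linarith) (by linarith)
        _ ≤ Real.exp e := hexp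
        _ ≤ _ := by push_cast; linarith
    exact_mod_cast h1
  · push_cast
    linarith
  · have heL : e ≤ L / 100 := by
      have h1 : e ≤ L ^ ((1 : ℝ) / 2) := by
        rw [he]
        exact Real.rpow_le_rpow_of_exponent_le hL1 (by norm_num)
      rw [← Real.sqrt_eq_rpow] at h1
      have h2 : Real.sqrt L ≤ L / 100 := by
        rw [Real.sqrt_le_left (by positivity)]
        nlinarith
      linarith
    obtain ⟨Y, hY⟩ : ∃ Y, ⌈Real.exp e⌉₊ + 1 = Y := ⟨_, rfl⟩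
    rw [hY] at hlogY hYpos ⊢
    have h1 : ((Y : ℝ) ^ 16) ^ 2 ≤ X := by
      calc ((Y : ℝ) ^ 16) ^ 2 = Real.exp (32 * Real.log Y) := by
            rw [mul_comm, Real.exp_mul, Real.exp_log hYpos, ← pow_mul]
            norm_cast
        _ ≤ Real.exp L := by
            apply Real.exp_le_exp.2
            linarith
        _ = X := by rw [← hL]; exact Real.exp_log hXpos
    exact_mod_cast h1
  · have h1 : ((⌊20 * Real.log L⌋₊ : ℕ) : ℝ) ≤ 20 * Real.log L := Nat.floor_le (by positivity)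
    linarith
  · exact (Nat.lt_floor_add_one _).le
  · calc 4 * (17 ^ 3 * (⌈A⌉₊ : ℝ) ^ 16) ≤ 4 * (17 ^ 3 * (2 * A) ^ 16) := by gcongr
      _ = (4 * 17 ^ 3 * 2 ^ 16) * A ^ 16 := by
          rw [mul_pow]
          ring
      _ = (4 * 17 ^ 3 * 2 ^ 16) * L ^ (18 * 32 * 16) := by
          rw [← hA, ← pow_mul, ← pow_mul]
      _ ≤ L ^ (10000 : ℝ) := pow_fact L hbig _ _ (by norm_num)
  · exact pow_fact2 L hbig 17 _ (by norm_num)

end Vale.Agent.P014.FM
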