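import Mathlib
import Vale.Agent.P014.H580.K9

/-!
The three error terms.
-/

namespace Vale.Agent.P014.FM

open Finset Function Vale.Agent.P014.H580 Vale.Agent.P014.H687.FM

lemma inv_le {L : ℝ} (hL : 10000 ≤ L) : L⁻¹ ≤ L ^ (-(9 : ℝ) / 100) := by
  rw [← Real.rpow_neg_one]
  exact Real.rpow_le_rpow_of_exponent_le (by linarith) (by norm_num)

lemma T1 : ∃ C : ℝ, 0 < C ∧ ∀ (X : ℕ) (L e K : ℝ) (Z Y J0 : ℕ), Par X L e K Z Y J0 →
    ∀ i j : ℕ, i ≠ 0 →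
    |∑ D ∈ TX Idx X, gG e17 e4 Phi i j D - ∑ D ∈ TX Idx X, gG e17 e4 Phi i j D * NQ Z (allP Phi) D|
      ≤ C * X * L ^ (-(9 : ℝ) / 100) := by
  obtain ⟨C1, hC1, hS1⟩ := S1 (ι := Idx)
  obtain ⟨P, hP⟩ : ∃ P : ℝ, ((allP Phi).card : ℝ) = P := ⟨_, rfl⟩
  have hP0 : 0 ≤ P := by rw [← hP]; exact Nat.cast_nonneg _
  refine ⟨P * (C1 * 2 ^ 17) + 1, by positivity, ?_⟩
  intro X L e K Z Y J0 hp i j hi
  have hbig := hp.big
  have hL0 : 0 < L := by linarith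
  have hX9 := hp.hX
  have hT1 := hS1 e17 e4 Phi i j X Z (allP Phi) (by
    intro q hq
    unfold allP at hq
    exact (Finset.mem_filter.1 hq).2) hi (by omega) (by have := hp.Z2; omega)
  rw [card_Idx, hp.hL, hP] at hT1
  have hZ32 : (Z : ℝ) ^ (-(1 : ℝ) / 32) ≤ (L ^ (18 : ℕ))⁻¹ := by
    calc (Z : ℝ) ^ (-(1 : ℝ) / 32) ≤ ((L ^ 18) ^ 32) ^ (-(1 : ℝ) / 32) :=
          Real.rpow_le_rpow_of_nonpos (by positivity) hp.Z1 (by norm_num)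
      _ = (L ^ (18 : ℕ))⁻¹ := by
          rw [← Real.rpow_natCast (L ^ 18) 32, ← Real.rpow_mul (by positivity)]
          norm_num
          rw [Real.rpow_neg_one]
  have hL1L : (1 + L) ≤ 2 * L := by linarith
  have hinv := inv_le hbig
  refine hT1.trans ?_
  calc P * (C1 * X * (1 + L) ^ (16 + 1) * (Z : ℝ) ^ (-(1 : ℝ) / 32))
      ≤ P * (C1 * X * (2 * L) ^ (16 + 1) * (L ^ (18 : ℕ))⁻¹) := by gcongr
    _ = P * (C1 * 2 ^ 17) * X * L⁻¹ := by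
        field_simp
        ring
    _ ≤ (P * (C1 * 2 ^ 17) + 1) * X * L ^ (-(9 : ℝ) / 100) := by
        gcongr
        linarith

lemma T2 (K : ℝ) : ∃ C : ℝ, 0 < C ∧ ∀ (X : ℕ) (L e : ℝ) (Z Y J0 : ℕ), Par X L e K Z Y J0 →
    CharB X Y J0 (L ^ K) (L ^ K) → ∀ i j : ℕ, i ≠ 0 → j ≠ 0 → j ≤ 2 →
    |∑ D ∈ TX Idx X, gG e17 e4 Phi i j D * NQ Z (allP Phi) D
        - ∑ D ∈ TX Idx X, gG e17 e4 Phi i j D * (NQ Z (allP Phi) D * MV Phi Y univ D)|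
      ≤ C * X * L ^ (-(9 : ℝ) / 100) := by
  obtain ⟨C2, hC2, htail⟩ := tail_le (ι := Idx) card_Idx
  refine ⟨16 * (2 ^ 18 + 2 * C2), by positivity, ?_⟩
  intro X L e Z Y J0 hp hcb i j hi hj hj2
  have hbig := hp.big
  have hL0 : 0 < L := by linarith
  have hL1 : 1 ≤ L := by linarith
  have hX9 := hp.hX
  have hinv := inv_le hbig
  have hW : (4 * (17 ^ (j + 1) * (Z : ℝ) ^ (Fintype.card Idx))) ≤ L ^ K := by
    rw [card_Idx]
    refine le_trans ?_ hp.W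
    have : (17 : ℝ) ^ (j + 1) ≤ 17 ^ 3 := pow_le_pow_right₀ (by norm_num) (by omega)
    gcongr
  have hT2 := S2 e17 e4 Phi Phi_self i j hi hj X Y Z J0 (L ^ K) (L ^ K)
    (by positivity) (hp.Z2.trans hp.ZY) (by have := hp.Z2; omega) hp.ZY hW hcb univ
  rw [Finset.card_univ, card_Idx, hp.hL] at hT2
  have htl : tailS Idx X J0 ≤ 2 * C2 * X * L⁻¹ := by
    have h1 := htail X J0 (by omega)
    rw [hp.hL] at h1
    unfold tailS
    refine h1.trans ?_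
    have h2 : ((1 : ℝ) / 2) ^ J0 ≤ 2 * (L ^ (8 : ℕ))⁻¹ := by
      have hlt := hp.J2
      have hl2 : (1 : ℝ) / 2 ≤ Real.log 2 := by have := Real.log_two_gt_d9; linarith
      have hlogL : 0 ≤ Real.log L := Real.log_nonneg hL1
      have h3 : ((1 : ℝ) / 2) ^ J0 = Real.exp (-(J0 * Real.log 2)) := by
        rw [Real.exp_neg, mul_comm, Real.exp_mul, Real.exp_log (by norm_num), Real.rpow_natCast,
          one_div, inv_pow]
      have h4 : 2 * (L ^ (8 : ℕ))⁻¹ = Real.exp (Real.log 2 - 8 * Real.log L) := by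
        rw [Real.exp_sub, Real.exp_log (by norm_num), mul_comm 8, Real.exp_mul,
          Real.exp_log hL0]
        norm_cast
      rw [h3, h4]
      apply Real.exp_le_exp.2
      nlinarith
    have h7 : L ^ (7 : ℝ) = L ^ (7 : ℕ) := by
      rw [← Real.rpow_natCast]
      norm_num
    calc C2 * X * L ^ (7 : ℝ) * (1 / 2) ^ J0 ≤ C2 * X * L ^ (7 : ℝ) * (2 * (L ^ (8 : ℕ))⁻¹) := by
          gcongr
      _ = 2 * C2 * X * L⁻¹ := by
          rw [h7]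
          field_simp
  refine hT2.trans ?_
  have h1 : 4 * X / L ^ K * (1 + L) ^ 16 ≤ 2 ^ 18 * X * L⁻¹ := by
    have hM := hp.M
    calc 4 * X / L ^ K * (1 + L) ^ 16 ≤ 4 * X / L ^ (17 : ℕ) * (2 * L) ^ 16 := by
          have : 1 + L ≤ 2 * L := by linarith
          gcongr
      _ = 2 ^ 18 * X * L⁻¹ := by
          field_simp
          ring
  push_cast
  calc 16 * (4 * X / L ^ K * (1 + L) ^ 16 + tailS Idx X J0)
      ≤ 16 * (2 ^ 18 * X * L⁻¹ + 2 * C2 * X * L⁻¹) := by gcongr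
    _ = 16 * (2 ^ 18 + 2 * C2) * X * L⁻¹ := by ring
    _ ≤ _ := by gcongr

lemma T3 : ∃ C : ℝ, 0 < C ∧ ∀ (X : ℕ) (L e K : ℝ) (Z Y J0 : ℕ), Par X L e K Z Y J0 →
    ∀ i j : ℕ,
    |∑ D ∈ TX Idx X, gG e17 e4 Phi i j D * (NQ Z (allP Phi) D * MV Phi Y univ D)
        - ∑ D ∈ TX Idx X, gG e17 e4 Phi i j D * mU D|
      ≤ C * X * L ^ (-(9 : ℝ) / 100) := by
  obtain ⟨C3, hC3, hfew⟩ := few_le (ι := Idx)
  obtain ⟨U, hU⟩ : ∃ U : ℝ, (Us.card : ℝ) = U := ⟨_, rfl⟩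
  have hU0 : 0 ≤ U := by rw [← hU]; exact Nat.cast_nonneg _
  refine ⟨(1 + U) * (C3 * 4 ^ 16), by positivity, ?_⟩
  intro X L e K Z Y J0 hp i j
  have hbig := hp.big
  have hL0 : 0 < L := by linarith
  have hL1 : 1 ≤ L := by linarith
  have hX9 := hp.hX
  have hT3 := S3 i j X Y Z hp.Z2 hp.ZY
  have hY2 : 2 ≤ Y := hp.Z2.trans hp.ZY
  have hfw := hfew X Y hX9 (by omega) (by rw [card_Idx]; exact hp.YX)
  rw [card_Idx, hp.hL] at hfw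
  rw [hU] at hT3
  refine hT3.trans ?_
  have he1 : 1 ≤ e := by rw [hp.he]; exact Real.one_le_rpow hL1 (by norm_num)
  have hY1' : (1 : ℝ) ≤ Y := by exact_mod_cast (by omega : 1 ≤ Y)
  have h1 : (1 + Real.log Y) ^ 16 ≤ 4 ^ 16 * L ^ ((16 : ℝ) / 100) := by
    have h2 : 0 ≤ Real.log Y := Real.log_nonneg hY1'
    have h3 := hp.Yup
    calc (1 + Real.log Y) ^ 16 ≤ (4 * e) ^ 16 := by
          gcongr
          linarith
      _ = 4 ^ 16 * L ^ ((16 : ℝ) / 100) := by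
          rw [mul_pow, hp.he, ← Real.rpow_natCast (L ^ ((1 : ℝ) / 100)), ← Real.rpow_mul hL0.le]
          norm_num
  have h2 : L ^ (-(1 : ℝ) / 4) * L ^ ((16 : ℝ) / 100) = L ^ (-(9 : ℝ) / 100) := by
    rw [← Real.rpow_add hL0]
    norm_num
  calc (1 + U) * ∑ D ∈ (TX Idx X).filter (fun D => (Lg Y D).card ≤ 3), sqh q4 D
      ≤ (1 + U) * (C3 * X * L ^ (-(1 : ℝ) / 4) * (1 + Real.log Y) ^ 16) := by
        gcongr
    _ ≤ (1 + U) * (C3 * X * L ^ (-(1 : ℝ) / 4) * (4 ^ 16 * L ^ ((16 : ℝ) / 100))) := by gcongr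
    _ = (1 + U) * (C3 * 4 ^ 16) * X * (L ^ (-(1 : ℝ) / 4) * L ^ ((16 : ℝ) / 100)) := by ring
    _ = _ := by rw [h2]

/-- the estimate for one choice of the exponents -/
theorem one_ij (hsw : SW) : ∃ C X₀ : ℝ, 0 < C ∧ ∀ X : ℕ, X₀ ≤ X → ∀ i j : ℕ, i ≠ 0 → j ≠ 0 → j ≤ 2 →
    |∑ D ∈ TX Idx X, gG e17 e4 Phi i j D - ∑ D ∈ TX Idx X, gG e17 e4 Phi i j D * mU D|
      ≤ C * X * (Real.log X) ^ (-(9 : ℝ) / 100) := by
  obtain ⟨C1, hC1, h1⟩ := T1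
  obtain ⟨C2, hC2, h2⟩ := T2 10000
  obtain ⟨C3, hC3, h3⟩ := T3
  obtain ⟨X₁, hchar⟩ := charB hsw 10000 (1 / 100) (by norm_num) (by norm_num)
  obtain ⟨X₂, hpar⟩ := par_ex
  refine ⟨C1 + C2 + C3, max X₁ X₂, by positivity, ?_⟩
  intro X hX i j hi hj hj2
  obtain ⟨L, e, Z, Y, J0, hp⟩ := hpar X ((le_max_right _ _).trans hX)
  have hX9 := hp.hX
  have hcb := hchar X Y J0 ((le_max_left _ _).trans hX) (by omega)
    (by rw [hp.hL, ← hp.he]; exact hp.Ylow) (by rw [hp.hL]; exact hp.J1)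
  rw [hp.hL] at hcb
  have a1 := abs_le.1 (h1 X L e _ Z Y J0 hp i j hi)
  have a2 := abs_le.1 (h2 X L e Z Y J0 hp hcb i j hi hj hj2)
  have a3 := abs_le.1 (h3 X L e _ Z Y J0 hp i j)
  rw [hp.hL, abs_le]
  obtain ⟨b, hb⟩ : ∃ b, X * L ^ (-(9 : ℝ) / 100) = b := ⟨_, rfl⟩
  have e1 : C1 * X * L ^ (-(9 : ℝ) / 100) = C1 * b := by rw [← hb]; ring
  have e2 : C2 * X * L ^ (-(9 : ℝ) / 100) = C2 * b := by rw [← hb]; ring
  have e3 : C3 * X * L ^ (-(9 : ℝ) / 100) = C3 * b := by rw [← hb]; ring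
  have e4 : (C1 + C2 + C3) * X * L ^ (-(9 : ℝ) / 100) = (C1 + C2 + C3) * b := by rw [← hb]; ring
  rw [e1] at a1
  rw [e2] at a2
  rw [e3] at a3
  rw [e4]
  constructor
  · linarith [a1.1, a2.1, a3.1]
  · linarith [a1.2, a2.2, a3.2]

end Vale.Agent.P014.FM
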