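import Mathlib
import Vale.Agent.P014.H580.K10

/-!
The reduction of the first moment to the main terms.
-/

namespace Vale.Agent.P014.FM

open Finset Function Vale.Agent.P014.H580 Vale.Agent.P014.H687.FM

lemma wt_eq (D : Idx → ℕ) : wt D = wtG e17 e4 Phi D := rfl

lemma chi4_cases {n : ℕ} : chi4 n = 0 ∨ chi4 n = 1 ∨ chi4 n = -1 := by
  unfold chi4
  split_ifs <;> simp

lemma J_cases (a b : ℕ) : (J a b = 0 ∧ jacobiSym a b = 0) ∨ (J a b = 1 ∧ jacobiSym a b = 1) ∨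
    (J a b = -1 ∧ jacobiSym a b = -1) := by
  unfold J
  rcases jacobiSym.trichotomy (a : ℤ) b with h | h | h <;> rw [h] <;> simp

open Classical in
/-- the indicator of the family as a combination of characters -/
lemma ind_eq (n : ℕ) : (if IsDm n then q4 n else 0)
    = (1 / 4) * (pw 2 2 n - pw 1 2 n - pw 2 1 n + pw 1 1 n) := by
  unfold pw
  by_cases hsq : Squarefree n
  · simp only [if_pos hsq]
    have hq : ((1 : ℝ) / 4) ^ n.primeFactors.card = q4 n := rfl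
    rw [hq]
    by_cases h3 : n % 4 = 3
    · have hc : chi4 n = -1 := by
        unfold chi4
        rw [if_neg (by omega), if_pos h3]
      rcases J_cases n 17 with ⟨h1, h2⟩ | ⟨h1, h2⟩ | ⟨h1, h2⟩
      · rw [if_neg (by
          rintro ⟨_, _, h⟩
          rw [h2] at h
          omega), hc, h1]
        ring
      · rw [if_neg (by
          rintro ⟨_, _, h⟩
          rw [h2] at h
          omega), hc, h1]
        ring
      · rw [if_pos ⟨hsq, h3, h2⟩, hc, h1]
        ring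
    · rw [if_neg (fun h => h3 h.2.1)]
      have hc : chi4 n = 0 ∨ chi4 n = 1 := by
        unfold chi4
        split_ifs <;> simp
      rcases hc with hc | hc <;> rw [hc] <;> ring
  · rw [if_neg (fun h => hsq h.1)]
    simp [hsq]

open Classical in
lemma mem_Dm {X n : ℕ} : n ∈ Dm X ↔ n ≤ X ∧ IsDm n := by
  unfold Dm
  rw [Finset.mem_filter, mem_range, Nat.lt_succ_iff]

open Classical in
/-- sums over the family and all factorisations -/
lemma sum_Dm (X : ℕ) (F : (Idx → ℕ) → ℝ) :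
    ∑ n ∈ Dm X, (1 / 4 : ℝ) ^ n.primeFactors.card * ∑ D ∈ tuples n, F D
      = ∑ D ∈ TX Idx X, (if IsDm (∏ u, D u) then q4 (∏ u, D u) else 0) * F D := by
  have h1 : ∀ D ∈ (TX Idx X).filter (fun D => IsDm (∏ u, D u)), ∏ u, D u ∈ Dm X := by
    intro D hD
    rw [Finset.mem_filter, mem_TX] at hD
    rw [mem_Dm]
    exact ⟨hD.1.2, hD.2⟩
  have h2 : ∑ D ∈ TX Idx X, (if IsDm (∏ u, D u) then q4 (∏ u, D u) else 0) * F D
      = ∑ D ∈ (TX Idx X).filter (fun D => IsDm (∏ u, D u)), q4 (∏ u, D u) * F D := by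
    rw [Finset.sum_filter]
    apply Finset.sum_congr rfl
    intro D _
    split_ifs
    · rfl
    · ring
  rw [h2, ← Finset.sum_fiberwise_of_maps_to h1]
  apply Finset.sum_congr rfl
  intro n hn
  rw [mem_Dm] at hn
  rw [Finset.mul_sum]
  have hn0 : n ≠ 0 := hn.2.1.ne_zero
  apply Finset.sum_congr
  · ext D
    unfold tuples
    rw [Finset.mem_filter, Finset.mem_filter, Finset.mem_filter, mem_TX, Fintype.mem_piFinset]
    constructor
    · rintro ⟨h3, h4⟩
      have h5 : ∀ u, 1 ≤ D u := fun u => Nat.pos_of_mem_divisors (h3 u)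
      rw [h4]
      exact ⟨⟨⟨h5, hn.1⟩, hn.2⟩, rfl⟩
    · rintro ⟨⟨⟨h3, _⟩, _⟩, h4⟩
      refine ⟨fun u => ?_, h4⟩
      rw [Nat.mem_divisors]
      refine ⟨?_, hn0⟩
      rw [← h4]
      exact Finset.dvd_prod_of_mem _ (Finset.mem_univ u)
  · intro D hD
    rw [Finset.mem_filter] at hD
    have h3 : ∏ u, D u = n := by
      rw [Finset.mem_filter] at hD
      exact hD.2
    rw [h3]
    rfl

/-- the difference in terms of the four twisted sums -/
lemma diff_eq (X : ℕ) : ∑ n ∈ Dm X, (kerAv n - ∑ U ∈ Us, mainU U n)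
    = (1 / 4) * (
      (∑ D ∈ TX Idx X, gG e17 e4 Phi 2 2 D - ∑ D ∈ TX Idx X, gG e17 e4 Phi 2 2 D * mU D)
      - (∑ D ∈ TX Idx X, gG e17 e4 Phi 1 2 D - ∑ D ∈ TX Idx X, gG e17 e4 Phi 1 2 D * mU D)
      - (∑ D ∈ TX Idx X, gG e17 e4 Phi 2 1 D - ∑ D ∈ TX Idx X, gG e17 e4 Phi 2 1 D * mU D)
      + (∑ D ∈ TX Idx X, gG e17 e4 Phi 1 1 D - ∑ D ∈ TX Idx X, gG e17 e4 Phi 1 1 D * mU D)) := by
  classical
  have h1 : ∀ n ∈ Dm X, kerAv n - ∑ U ∈ Us, mainU U n
      = (1 / 4 : ℝ) ^ n.primeFactors.card * ∑ D ∈ tuples n, (wt D * (1 - mU D)) := by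
    intro n _
    unfold kerAv mainU
    rw [← Finset.mul_sum, ← mul_sub]
    congr 1
    simp only [mul_sub, mul_one, Finset.sum_sub_distrib]
    congr 1
    simp only [Finset.sum_filter]
    rw [Finset.sum_comm]
    apply Finset.sum_congr rfl
    intro D _
    unfold mU
    rw [Finset.mul_sum]
    apply Finset.sum_congr rfl
    intro U _
    by_cases h : ∀ u, u ∉ U → D u = 1
    · rw [if_pos h, if_pos h, mul_one]
    · rw [if_neg h, if_neg h, mul_zero]
  rw [Finset.sum_congr rfl h1, sum_Dm]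
  simp only [← Finset.sum_sub_distrib, ← Finset.sum_add_distrib, Finset.mul_sum]
  apply Finset.sum_congr rfl
  intro D _
  rw [ind_eq, wt_eq]
  unfold gG
  ring

/-- **reduction to the main terms**, with a rate -/
theorem fm4_rate (hsw : SW) : ∃ C X₀ : ℝ, 0 < C ∧ ∀ X : ℕ, X₀ ≤ X →
    |∑ n ∈ Dm X, (kerAv n - ∑ U ∈ Us, mainU U n)| ≤ C * X * (Real.log X) ^ (-(9 : ℝ) / 100) := by
  obtain ⟨C, X₀, hC, h⟩ := one_ij hsw
  refine ⟨C, X₀, hC, ?_⟩
  intro X hX
  rw [diff_eq]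
  have a1 := abs_le.1 (h X hX 2 2 (by norm_num) (by norm_num) (by norm_num))
  have a2 := abs_le.1 (h X hX 1 2 (by norm_num) (by norm_num) (by norm_num))
  have a3 := abs_le.1 (h X hX 2 1 (by norm_num) (by norm_num) (by norm_num))
  have a4 := abs_le.1 (h X hX 1 1 (by norm_num) (by norm_num) (by norm_num))
  rw [abs_le]
  constructor
  · linarith [a1.1, a2.2, a3.2, a4.1]
  · linarith [a1.2, a2.1, a3.1, a4.2]

/-- **FM4** -/
theorem fm4 (hsw : SW) : ∀ ε : ℝ, 0 < ε → ∃ X₀ : ℕ, ∀ X : ℕ, X₀ ≤ X →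
    |∑ n ∈ Dm X, (kerAv n - ∑ U ∈ Us, mainU U n)| ≤ ε * X := by
  intro ε hε
  obtain ⟨C, X₁, hC, h⟩ := fm4_rate hsw
  have ht : Filter.Tendsto (fun X : ℕ => C * (Real.log X) ^ (-(9 / 100 : ℝ))) Filter.atTop
      (nhds 0) := by
    have h1 := (tendsto_rpow_neg_atTop (show (0 : ℝ) < 9 / 100 by norm_num)).comp
      (Real.tendsto_log_atTop.comp tendsto_natCast_atTop_atTop)
    have h2 := h1.const_mul C
    rw [mul_zero] at h2
    exact h2
  obtain ⟨X₂, hX₂⟩ := Filter.eventually_atTop.1 (ht.eventually (ge_mem_nhds hε))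
  refine ⟨max ⌈X₁⌉₊ X₂, ?_⟩
  intro X hX
  have hX1 : X₁ ≤ X := (Nat.le_ceil _).trans (by exact_mod_cast (le_max_left _ _).trans hX)
  have h1 := h X hX1
  have h2 := hX₂ X ((le_max_right _ _).trans hX)
  refine h1.trans ?_
  have e1 : (-(9 : ℝ) / 100) = -(9 / 100 : ℝ) := by ring
  rw [e1]
  calc C * X * (Real.log X) ^ (-(9 / 100 : ℝ)) = (C * (Real.log X) ^ (-(9 / 100 : ℝ))) * X := by ring
    _ ≤ ε * X := mul_le_mul_of_nonneg_right h2 (Nat.cast_nonneg _)

end Vale.Agent.P014.FM
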