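import Vale.Agent.P014.H580.K11
import Vale.Agent.P014.H687.FM5g

/-!
The reduction to the main terms, for an arbitrary class modulo 4 and 17.
-/

namespace Vale.Agent.P014.FM

open Finset Function Vale.Agent.P014.H580 Vale.Agent.P014.H687.FM Vale.Agent.P014.H687.FMG

/-- the sign of a class -/
noncomputable def sgk (z : ZMod 2) : ℝ := if z = 1 then -1 else 1

lemma sgk_cases (z : ZMod 2) : sgk z = 1 ∨ sgk z = -1 := by
  unfold sgk
  split_ifs <;> simp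

lemma q4_eq (n : ℕ) : ((1 : ℝ) / 4) ^ n.primeFactors.card = q4 n := rfl

open Classical in
/-- the indicator of a class as a combination of characters -/
lemma ind_eqk (k : ZMod 2 × ZMod 2) (n : ℕ) :
    (if Squarefree n ∧ n.Coprime 34 ∧ H687.FM.cl n = k then q4 n else 0)
    = (1 / 4) * (pw 2 2 n + sgk k.1 * pw 1 2 n + sgk k.2 * pw 2 1 n
      + sgk k.1 * sgk k.2 * pw 1 1 n) := by
  unfold pw
  by_cases hsq : Squarefree n
  swap
  · rw [if_neg (fun h => hsq h.1)]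
    simp [hsq]
  simp only [if_pos hsq, q4_eq]
  by_cases hc : n.Coprime 34
  swap
  · rw [if_neg (fun h => hc h.2.1)]
    rw [cop34] at hc
    by_cases h2 : n % 2 = 1
    · have h17 : 17 ∣ n := by
        by_contra h
        exact hc ⟨h2, h⟩
      have hJ : J n 17 = 0 := by
        apply J_eq_zero (by norm_num)
        intro h
        have := Nat.Coprime.eq_one_of_dvd h.symm h17
        omega
      rw [hJ]
      ring
    · have h4 : chi4 n = 0 := FM.chi4_even (by rw [Nat.odd_iff]; exact h2)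
      rw [h4]
      ring
  rw [cop34] at hc
  obtain ⟨h2, h17⟩ := hc
  have hcop : n.Coprime 34 := cop34.2 ⟨h2, h17⟩
  -- the first coordinate
  have hchi : chi4 n = sgk (H687.FM.cl n).1 := by
    unfold chi4 H687.FM.cl sgk
    dsimp only
    by_cases h3 : n % 4 = 3
    · rw [if_neg (by omega), if_pos h3, if_pos h3, if_pos rfl]
    · rw [if_pos (by omega), if_neg h3, if_neg (by decide)]
  have hJn0 : jacobiSym (n : ℤ) 17 ≠ 0 := by
    intro h
    rw [jacobiSym.eq_zero_iff_not_coprime, Int.gcd_natCast_natCast] at h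
    apply h17
    have hp : Nat.Prime 17 := by norm_num
    have h5 : ¬ n.Coprime 17 := h
    rw [Nat.coprime_comm, hp.coprime_iff_not_dvd, not_not] at h5
    exact h5
  have hJ : J n 17 = sgk (H687.FM.cl n).2 := by
    unfold H687.FM.cl sgk
    dsimp only
    rcases J_cases n 17 with ⟨h1, h3⟩ | ⟨h1, h3⟩ | ⟨h1, h3⟩
    · exact absurd h3 hJn0
    · rw [h1, h3]
      simp
    · rw [h1, h3]
      simp
  have hsg2 : ∀ z : ZMod 2, sgk z * sgk z = 1 := by
    intro z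
    rcases sgk_cases z with h | h <;> rw [h] <;> norm_num
  have hne : ∀ z z' : ZMod 2, z ≠ z' → sgk z * sgk z' = -1 := by
    intro z z' h
    unfold sgk
    have h01 : ∀ z z' : ZMod 2, z ≠ z' → (z = 1 ∧ z' ≠ 1) ∨ (z ≠ 1 ∧ z' = 1) := by decide
    rcases h01 z z' h with h1 | h1
    · rw [if_pos h1.1, if_neg h1.2]
      norm_num
    · rw [if_neg h1.1, if_pos h1.2]
      norm_num
  obtain ⟨c, hcl⟩ : ∃ c, H687.FM.cl n = c := ⟨_, rfl⟩
  rw [hchi, hJ, hcl]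
  by_cases h1 : c.1 = k.1
  · by_cases h2 : c.2 = k.2
    · have hck : c = k := Prod.ext h1 h2
      rw [if_pos ⟨hsq, hcop, hck⟩, hck]
      have e1 := hsg2 k.1
      have e2 := hsg2 k.2
      linear_combination (-(1 / 4) * q4 n * (sgk k.2 * sgk k.2) * 2
        - (1 / 4) * q4 n * (sgk k.2 * sgk k.2) * 2) * e1 - q4 n * e2
    · rw [if_neg (fun h => h2 (by rw [h.2.2]))]
      have e1 := hsg2 c.2
      have e2 := hne c.2 k.2 h2
      linear_combination (-(1 / 4) * q4 n * (sgk c.1 ^ 2 + sgk k.1 * sgk c.1)) * e1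
        + (-(1 / 4) * q4 n * (sgk c.1 ^ 2 + sgk k.1 * sgk c.1)) * e2
  · rw [if_neg (fun h => h1 (by rw [h.2.2]))]
    have e1 := hsg2 c.1
    have e2 := hne c.1 k.1 h1
    linear_combination (-(1 / 4) * q4 n * (sgk c.2 ^ 2 + sgk k.2 * sgk c.2)) * e1
        + (-(1 / 4) * q4 n * (sgk c.2 ^ 2 + sgk k.2 * sgk c.2)) * e2

open Classical in
/-- sums over the family and all factorisations -/
lemma sum_Fam (k : ZMod 2 × ZMod 2) (X : ℕ) (F : (Idx → ℕ) → ℝ) :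
    ∑ n ∈ Fam k X, (1 / 4 : ℝ) ^ n.primeFactors.card * ∑ D ∈ tuples n, F D
      = ∑ D ∈ TX Idx X, (if Squarefree (∏ u, D u) ∧ (∏ u, D u).Coprime 34 ∧
          H687.FM.cl (∏ u, D u) = k then q4 (∏ u, D u) else 0) * F D := by
  have h1 : ∀ D ∈ (TX Idx X).filter (fun D => Squarefree (∏ u, D u) ∧ (∏ u, D u).Coprime 34 ∧
          H687.FM.cl (∏ u, D u) = k), ∏ u, D u ∈ Fam k X := by
    intro D hD
    rw [Finset.mem_filter, mem_TX] at hD
    rw [mem_Fam]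
    exact ⟨hD.1.2, hD.2⟩
  have h2 : ∑ D ∈ TX Idx X, (if Squarefree (∏ u, D u) ∧ (∏ u, D u).Coprime 34 ∧
          H687.FM.cl (∏ u, D u) = k then q4 (∏ u, D u) else 0) * F D
      = ∑ D ∈ (TX Idx X).filter (fun D => Squarefree (∏ u, D u) ∧ (∏ u, D u).Coprime 34 ∧
          H687.FM.cl (∏ u, D u) = k), q4 (∏ u, D u) * F D := by
    rw [Finset.sum_filter]
    apply Finset.sum_congr rfl
    intro D _
    split_ifs
    · rfl
    · ring
  rw [h2, ← Finset.sum_fiberwise_of_maps_to h1]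
  apply Finset.sum_congr rfl
  intro n hn
  rw [mem_Fam] at hn
  rw [Finset.mul_sum]
  have hn0 : n ≠ 0 := hn.2.1.ne_zero
  apply Finset.sum_congr
  · ext D
    unfold tuples
    rw [Finset.mem_filter, Finset.mem_filter, Finset.mem_filter, mem_TX, Fintype.mem_piFinset]
    constructor
    · rintro ⟨h3, h4⟩
      have h5 : ∀ u, 1 ≤ D u := fun u => Nat.pos_of_mem_divisors (h3 u)
      rw [h4]
      exact ⟨⟨⟨h5, hn.1⟩, hn.2⟩, rfl⟩
    · rintro ⟨⟨⟨h3, _⟩, _⟩, h4⟩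
      refine ⟨fun u => ?_, h4⟩
      rw [Nat.mem_divisors]
      refine ⟨?_, hn0⟩
      rw [← h4]
      exact Finset.dvd_prod_of_mem _ (Finset.mem_univ u)
  · intro D hD
    rw [Finset.mem_filter] at hD
    have h3 : ∏ u, D u = n := by
      rw [Finset.mem_filter] at hD
      exact hD.2
    rw [h3]
    rfl

/-- the difference in terms of the four twisted sums -/
lemma diff_eqk (k : ZMod 2 × ZMod 2) (X : ℕ) : ∑ n ∈ Fam k X, (kerAv n - ∑ U ∈ Us, mainU U n)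
    = (1 / 4) * (
      (∑ D ∈ TX Idx X, gG e17 e4 Phi 2 2 D - ∑ D ∈ TX Idx X, gG e17 e4 Phi 2 2 D * mU D)
      + sgk k.1 * (∑ D ∈ TX Idx X, gG e17 e4 Phi 1 2 D - ∑ D ∈ TX Idx X, gG e17 e4 Phi 1 2 D * mU D)
      + sgk k.2 * (∑ D ∈ TX Idx X, gG e17 e4 Phi 2 1 D - ∑ D ∈ TX Idx X, gG e17 e4 Phi 2 1 D * mU D)
      + sgk k.1 * sgk k.2 *
        (∑ D ∈ TX Idx X, gG e17 e4 Phi 1 1 D - ∑ D ∈ TX Idx X, gG e17 e4 Phi 1 1 D * mU D)) := by
  classical
  have h1 : ∀ n ∈ Fam k X, kerAv n - ∑ U ∈ Us, mainU U n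
      = (1 / 4 : ℝ) ^ n.primeFactors.card * ∑ D ∈ tuples n, (wt D * (1 - mU D)) := by
    intro n _
    unfold kerAv mainU
    rw [← Finset.mul_sum, ← mul_sub]
    congr 1
    simp only [mul_sub, mul_one, Finset.sum_sub_distrib]
    congr 1
    simp only [Finset.sum_filter]
    rw [Finset.sum_comm]
    apply Finset.sum_congr rfl
    intro D _
    unfold mU
    rw [Finset.mul_sum]
    apply Finset.sum_congr rfl
    intro U _
    by_cases h : ∀ u, u ∉ U → D u = 1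
    · rw [if_pos h, if_pos h, mul_one]
    · rw [if_neg h, if_neg h, mul_zero]
  rw [Finset.sum_congr rfl h1, sum_Fam]
  simp only [← Finset.sum_sub_distrib, Finset.mul_sum, ← Finset.sum_add_distrib]
  apply Finset.sum_congr rfl
  intro D _
  rw [ind_eqk, wt_eq]
  unfold gG
  ring

/-- **FM4** for all classes -/
theorem fm4g (hsw : SW) (k : ZMod 2 × ZMod 2) : ∀ ε : ℝ, 0 < ε → ∃ X₀ : ℕ, ∀ X : ℕ, X₀ ≤ X →
    |∑ n ∈ Fam k X, (kerAv n - ∑ U ∈ Us, mainU U n)| ≤ ε * X := by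
  intro ε hε
  obtain ⟨C, X₁, hC, h⟩ := one_ij hsw
  have ht : Filter.Tendsto (fun X : ℕ => C * (Real.log X) ^ (-(9 / 100 : ℝ))) Filter.atTop
      (nhds 0) := by
    have h1 := (tendsto_rpow_neg_atTop (show (0 : ℝ) < 9 / 100 by norm_num)).comp
      (Real.tendsto_log_atTop.comp tendsto_natCast_atTop_atTop)
    have h2 := h1.const_mul C
    rw [mul_zero] at h2
    exact h2
  obtain ⟨X₂, hX₂⟩ := Filter.eventually_atTop.1 (ht.eventually (ge_mem_nhds hε))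
  refine ⟨max ⌈X₁⌉₊ X₂, ?_⟩
  intro X hX
  have hX1 : X₁ ≤ X := (Nat.le_ceil _).trans (by exact_mod_cast (le_max_left _ _).trans hX)
  have h2 := hX₂ X ((le_max_right _ _).trans hX)
  have e1 : (-(9 : ℝ) / 100) = -(9 / 100 : ℝ) := by ring
  have h3 : C * X * (Real.log X) ^ (-(9 : ℝ) / 100) ≤ ε * X := by
    rw [e1]
    calc C * X * (Real.log X) ^ (-(9 / 100 : ℝ)) = (C * (Real.log X) ^ (-(9 / 100 : ℝ))) * X := by
          ring
      _ ≤ ε * X := mul_le_mul_of_nonneg_right h2 (Nat.cast_nonneg _)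
  refine le_trans ?_ h3
  rw [diff_eqk]
  have a1 := h X hX1 2 2 (by norm_num) (by norm_num) (by norm_num)
  have a2 := h X hX1 1 2 (by norm_num) (by norm_num) (by norm_num)
  have a3 := h X hX1 2 1 (by norm_num) (by norm_num) (by norm_num)
  have a4 := h X hX1 1 1 (by norm_num) (by norm_num) (by norm_num)
  have hs : ∀ z, |sgk z| = 1 := by
    intro z
    rcases sgk_cases z with h | h <;> rw [h] <;> simp
  obtain ⟨s1, hs1⟩ : ∃ s, sgk k.1 = s := ⟨_, rfl⟩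
  obtain ⟨s2, hs2⟩ : ∃ s, sgk k.2 = s := ⟨_, rfl⟩
  have b1 : |s1| = 1 := by rw [← hs1]; exact hs _
  have b2 : |s2| = 1 := by rw [← hs2]; exact hs _
  rw [hs1, hs2, abs_mul, abs_of_nonneg (by norm_num : (0 : ℝ) ≤ 1 / 4)]
  obtain ⟨t1, ht1⟩ : ∃ t, (∑ D ∈ TX Idx X, gG e17 e4 Phi 2 2 D
    - ∑ D ∈ TX Idx X, gG e17 e4 Phi 2 2 D * mU D) = t := ⟨_, rfl⟩
  obtain ⟨t2, ht2⟩ : ∃ t, (∑ D ∈ TX Idx X, gG e17 e4 Phi 1 2 D
    - ∑ D ∈ TX Idx X, gG e17 e4 Phi 1 2 D * mU D) = t := ⟨_, rfl⟩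
  obtain ⟨t3, ht3⟩ : ∃ t, (∑ D ∈ TX Idx X, gG e17 e4 Phi 2 1 D
    - ∑ D ∈ TX Idx X, gG e17 e4 Phi 2 1 D * mU D) = t := ⟨_, rfl⟩
  obtain ⟨t4, ht4⟩ : ∃ t, (∑ D ∈ TX Idx X, gG e17 e4 Phi 1 1 D
    - ∑ D ∈ TX Idx X, gG e17 e4 Phi 1 1 D * mU D) = t := ⟨_, rfl⟩
  rw [ht1] at a1
  rw [ht2] at a2
  rw [ht3] at a3
  rw [ht4] at a4
  rw [ht1, ht2, ht3, ht4]
  have c2 : |s1 * t2| = |t2| := by rw [abs_mul, b1, one_mul]
  have c3 : |s2 * t3| = |t3| := by rw [abs_mul, b2, one_mul]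
  have c4 : |s1 * s2 * t4| = |t4| := by rw [abs_mul, abs_mul, b1, b2, one_mul, one_mul]
  have d1 := abs_add_le (t1 + s1 * t2 + s2 * t3) (s1 * s2 * t4)
  have d2 := abs_add_le (t1 + s1 * t2) (s2 * t3)
  have d3 := abs_add_le t1 (s1 * t2)
  linarith

end Vale.Agent.P014.FM
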